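import Vale.Agent.P156.H12.Out
import Vale.Agent.P156.H490.E3
import Vale.Agent.P156.B.Bridge

/-!
P156, blocks E1 + E3: Theorem II implies the orthogonal invariance of the limits of the scattering
matrices.
-/

open Filter Topology Matrix

namespace Vale.Agent.P156.H12

theorem e1Out {d : ℕ} (hII : SpecTII d) : H490.E1Out d := by
  intro 𝒰 E E₀ h K O hO Φ hΦ C hC
  exact E1out hII h K O (_root_.mul_eq_one_comm.1 hO) Φ hΦ C hC

/-- **Theorem II implies the orthogonal invariance.** -/
theorem specOInv_of_TII {d : ℕ} (hII : SpecTII d) : SpecOInv d :=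
  H490.specOInv (e1Out hII) (B.specPerm d) (B.specZW d)

end Vale.Agent.P156.H12
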