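import Mathlib

/-!
# P156, block E: from finitely many test functions to product functionals (compactness)
-/

set_option linter.unusedSectionVars false

namespace Vale.Agent.P156.H12

open MeasureTheory Filter
open scoped Topology BigOperators NNReal ENNReal BoundedContinuousFunction

variable {St : Type*} [NormedAddCommGroup St] [NormedSpace ℝ St] [FiniteDimensional ℝ St]
  [MeasurableSpace St] [BorelSpace St]

/-- the tight compact set of laws with tails `≤ C / (n+1)²` -/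
def tailSet (St : Type*) [NormedAddCommGroup St] [MeasurableSpace St] (C : ℝ≥0) :
    Set (ProbabilityMeasure St) :=
  {μ | ∀ n : ℕ, μ (Metric.closedBall 0 ((n : ℝ) + 1))ᶜ ≤ C / ((n : ℝ≥0) + 1) ^ 2}

lemma isCompact_tailSet (C : ℝ≥0) : IsCompact (tailSet St C) := by
  have : ProperSpace St := FiniteDimensional.proper ℝ St
  refine isCompact_setOfPred_probabilityMeasure_mass_eq_compl_isCompact_le
    (u := fun n => C / ((n : ℝ≥0) + 1) ^ 2) (K := fun n => Metric.closedBall 0 ((n : ℝ) + 1))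
    ?_ (fun n => isCompact_closedBall 0 _) (Or.inl inferInstance)
  rw [← NNReal.tendsto_coe]
  have h1 : Tendsto (fun n : ℕ => ((n : ℝ) + 1) ^ 2) atTop atTop := by
    refine tendsto_atTop_mono (fun n => ?_) (tendsto_natCast_atTop_atTop (R := ℝ))
    nlinarith [sq_nonneg (n : ℝ), (Nat.cast_nonneg n : (0 : ℝ) ≤ n)]
  have h2 := Tendsto.div_atTop (tendsto_const_nhds (x := (C : ℝ))) h1
  simpa using h2

/-- bounded continuous function composed with the product -/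
noncomputable def prodInt {J : Type*} [Fintype J] (Ψ : (J → St) →ᵇ ℝ)
    (μ : ProbabilityMeasure St) : ℝ :=
  ∫ y, Ψ y ∂(Measure.pi fun _ : J => (μ : Measure St))

lemma continuous_prodInt {J : Type*} [Fintype J] (Ψ : (J → St) →ᵇ ℝ) :
    Continuous (prodInt (J := J) Ψ) := by
  have h1 : Continuous fun μ : ProbabilityMeasure St =>
      ProbabilityMeasure.pi (fun _ : J => μ) := by fun_prop
  exact (ProbabilityMeasure.continuous_integral_boundedContinuousFunction Ψ).comp h1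

/-- **Compactness.**  If all laws of the family `𝒢` satisfy the identity `Φ₁ = Φ₂` (continuous
functionals), then a law with controlled tails for which it fails by `ε'` is separated from all of
`𝒢` by finitely many bounded continuous functions, with a uniform constant. -/
theorem exists_tests (C : ℝ≥0) (Φ : ProbabilityMeasure St → ℝ) (hΦ : Continuous Φ)
    (𝒢 : Set (ProbabilityMeasure St)) (h𝒢 : ∀ γ ∈ 𝒢, Φ γ = 0) {ε' : ℝ} (hε' : 0 < ε') :
    ∃ (T : Finset (St →ᵇ ℝ)) (ε : ℝ), 0 < ε ∧ ∀ μ ∈ tailSet St C, ε' ≤ |Φ μ| → ∀ γ ∈ 𝒢,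
      ∃ ψ ∈ T, ε < |∫ x, ψ x ∂(μ : Measure St) - ∫ x, ψ x ∂(γ : Measure St)| := by
  classical
  by_contra hcon
  push Not at hcon
  have hch : ∀ a : Finset (St →ᵇ ℝ) × ℕ, ∃ p : ProbabilityMeasure St × ProbabilityMeasure St,
      p.1 ∈ tailSet St C ∧ ε' ≤ |Φ p.1| ∧ p.2 ∈ 𝒢 ∧ ∀ ψ ∈ a.1,
        |∫ x, ψ x ∂(p.1 : Measure St) - ∫ x, ψ x ∂(p.2 : Measure St)| ≤ 1 / ((a.2 : ℝ) + 1) := by
    intro a
    obtain ⟨μ, h1, h2, γ, h3, h4⟩ := hcon a.1 (1 / ((a.2 : ℝ) + 1)) (by positivity)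
    exact ⟨(μ, γ), h1, h2, h3, h4⟩
  choose p hp1 hp2 hp3 hp4 using hch
  let 𝒱 : Ultrafilter (Finset (St →ᵇ ℝ) × ℕ) := Ultrafilter.of atTop
  have h𝒱 : (𝒱 : Filter (Finset (St →ᵇ ℝ) × ℕ)) ≤ atTop := Ultrafilter.of_le _
  obtain ⟨μ, hμ, hlim⟩ := (isCompact_tailSet (St := St) C).ultrafilter_le_nhds
    (𝒱.map fun a => (p a).1) (by
      rw [le_principal_iff]
      exact Filter.Eventually.of_forall (f := (𝒱 : Filter _)) fun a => hp1 a)
  have hlim1 : Tendsto (fun a => (p a).1) 𝒱 (𝓝 μ) := hlim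
  have hlim2 : Tendsto (fun a => (p a).2) 𝒱 (𝓝 μ) := by
    rw [ProbabilityMeasure.tendsto_iff_forall_integral_tendsto] at hlim1 ⊢
    intro ψ
    have h1 := hlim1 ψ
    have h2 : Tendsto (fun a => ∫ x, ψ x ∂((p a).1 : Measure St) -
        ∫ x, ψ x ∂((p a).2 : Measure St)) 𝒱 (𝓝 0) := by
      have h3 : ∀ᶠ a : Finset (St →ᵇ ℝ) × ℕ in 𝒱, |∫ x, ψ x ∂((p a).1 : Measure St) -
          ∫ x, ψ x ∂((p a).2 : Measure St)| ≤ 1 / ((a.2 : ℝ) + 1) := by
        refine h𝒱 ?_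
        filter_upwards [eventually_ge_atTop (({ψ} : Finset (St →ᵇ ℝ)), 0)] with a ha
        exact hp4 a ψ (ha.1 (Finset.mem_singleton_self ψ))
      have h4 : Tendsto (fun a : Finset (St →ᵇ ℝ) × ℕ => 1 / ((a.2 : ℝ) + 1)) 𝒱 (𝓝 0) := by
        have h5 : Tendsto (fun a : Finset (St →ᵇ ℝ) × ℕ => a.2) atTop atTop := by
          rw [← prod_atTop_atTop_eq]
          exact tendsto_snd
        exact ((tendsto_one_div_add_atTop_nhds_zero_nat (𝕜 := ℝ)).comp h5).mono_left h𝒱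
      exact squeeze_zero_norm' (by simpa only [Real.norm_eq_abs] using h3) h4
    have := h1.sub h2
    simpa using this
  have e1 : Tendsto (fun a => Φ (p a).1) 𝒱 (𝓝 (Φ μ)) := (hΦ.tendsto μ).comp hlim1
  have e2 : Tendsto (fun a => Φ (p a).2) 𝒱 (𝓝 (Φ μ)) := (hΦ.tendsto μ).comp hlim2
  have e3 : Φ μ = 0 := by
    refine tendsto_nhds_unique e2 ?_
    have : (fun a => Φ (p a).2) = fun _ => 0 := by
      ext a; exact h𝒢 _ (hp3 a)
    rw [this]; exact tendsto_const_nhds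
  have e4 : ε' ≤ |Φ μ| := ge_of_tendsto e1.abs (Eventually.of_forall hp2)
  rw [e3, abs_zero] at e4
  linarith

/-- Markov: a second moment bound gives membership in `tailSet`. -/
lemma mem_tailSet {C : ℝ≥0} (μ : ProbabilityMeasure St)
    (h : ∫⁻ x, ENNReal.ofReal (‖x‖ ^ 2) ∂(μ : Measure St) ≤ C) : μ ∈ tailSet St C := by
  intro n
  have h1 : (μ : Measure St) (Metric.closedBall 0 ((n : ℝ) + 1))ᶜ ≤
      C / ((n : ℝ≥0∞) + 1) ^ 2 := by
    have hsub : (Metric.closedBall (0 : St) ((n : ℝ) + 1))ᶜ ⊆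
        {x | ((n : ℝ≥0∞) + 1) ^ 2 ≤ ENNReal.ofReal (‖x‖ ^ 2)} := by
      intro x hx
      simp only [Set.mem_compl_iff, Metric.mem_closedBall, dist_zero_right, not_le] at hx
      show ((n : ℝ≥0∞) + 1) ^ 2 ≤ ENNReal.ofReal (‖x‖ ^ 2)
      have h3 : ((n : ℝ≥0∞) + 1) ^ 2 = ENNReal.ofReal (((n : ℝ) + 1) ^ 2) := by
        rw [ENNReal.ofReal_pow (by positivity), ENNReal.ofReal_add (by positivity) (by norm_num)]
        simp
      rw [h3]
      gcongr
    refine (measure_mono hsub).trans ?_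
    refine (meas_ge_le_lintegral_div ?_ ?_ ?_).trans ?_
    · exact (by fun_prop : Measurable fun x : St => ENNReal.ofReal (‖x‖ ^ 2)).aemeasurable
    · positivity
    · exact ENNReal.pow_ne_top (by simp)
    · gcongr
  have h2 : ((μ (Metric.closedBall 0 ((n : ℝ) + 1))ᶜ : ℝ≥0) : ℝ≥0∞) ≤
      ((C / ((n : ℝ≥0) + 1) ^ 2 : ℝ≥0) : ℝ≥0∞) := by
    rw [ENNReal.coe_div (by positivity)]
    simpa using h1
  exact ENNReal.coe_le_coe.1 h2

end Vale.Agent.P156.H12
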