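import Mathlib
import Vale.Agent.P156.R2.Spec

/-!
# P156, block E: rotation invariance of independent Gaussian stars
-/

set_option linter.unusedSectionVars false

namespace Vale.Agent.P156.H12

open MeasureTheory Filter Matrix ProbabilityTheory
open scoped Topology BigOperators

/-- action of a `J × J` matrix on `J`-tuples of vectors -/
def act {J E : Type*} [Fintype J] [AddCommMonoid E] [Module ℝ E] (O : Matrix J J ℝ)
    (y : J → E) : J → E := fun j => ∑ j', O j j' • y j'

lemma continuous_act {J E : Type*} [Fintype J] [AddCommMonoid E] [Module ℝ E]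
    [TopologicalSpace E] [ContinuousAdd E] [ContinuousSMul ℝ E] (O : Matrix J J ℝ) :
    Continuous (act O : (J → E) → (J → E)) := by
  unfold act
  fun_prop

lemma act_comp_linear {J E F : Type*} [Fintype J] [AddCommMonoid E] [Module ℝ E]
    [AddCommMonoid F] [Module ℝ F] (O : Matrix J J ℝ) (T : E →ₗ[ℝ] F) (y : J → E) :
    act O (fun j => T (y j)) = fun j => T (act O y j) := by
  ext j
  unfold act
  rw [map_sum]
  simp only [map_smul]

/-- the linear isometry `O ⊗ 1` of `EuclideanSpace ℝ (J × ι)` -/
noncomputable def rotIso {J ι : Type*} [Fintype J] [DecidableEq J] [Fintype ι]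
    (O : Matrix J J ℝ) (hO : Oᵀ * O = 1) :
    EuclideanSpace ℝ (J × ι) ≃ₗᵢ[ℝ] EuclideanSpace ℝ (J × ι) := by
  classical
  refine LinearIsometry.toLinearIsometryEquiv
    { toFun := fun g => WithLp.toLp 2 fun p => ∑ j', O p.1 j' * g (j', p.2)
      map_add' := ?_
      map_smul' := ?_
      norm_map' := ?_ } rfl
  · intro g h
    ext p
    simp [mul_add, Finset.sum_add_distrib]
  · intro c g
    ext p
    simp [Finset.mul_sum, mul_left_comm]
  · intro g
    simp only [LinearMap.coe_mk, AddHom.coe_mk]
    rw [EuclideanSpace.norm_eq, EuclideanSpace.norm_eq]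
    congr 1
    simp only [Real.norm_eq_abs, sq_abs]
    rw [Fintype.sum_prod_type_right, Fintype.sum_prod_type_right]
    refine Finset.sum_congr rfl fun i _ => ?_
    have h1 : ∀ v : J → ℝ, ∑ j, (∑ j', O j j' * v j') ^ 2 = ∑ j, v j ^ 2 := by
      intro v
      have h2 : (O *ᵥ v) ⬝ᵥ (O *ᵥ v) = v ⬝ᵥ v := by
        rw [dotProduct_mulVec, vecMul_mulVec, hO, vecMul_one]
      simpa [dotProduct, mulVec, sq] using h2
    exact h1 fun j => g (j, i)

lemma stdpi_rot {J ι : Type*} [Fintype J] [DecidableEq J] [Fintype ι]
    (O : Matrix J J ℝ) (hO : Oᵀ * O = 1) :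
    (Measure.pi fun _ : J × ι => gaussianReal 0 1).map
      (fun g p => ∑ j', O p.1 j' * g (j', p.2)) = Measure.pi fun _ : J × ι => gaussianReal 0 1 := by
  have h1 := map_pi_eq_stdGaussian (ι := J × ι)
  have h2 := stdGaussian_map (rotIso (ι := ι) O hO)
  rw [← h1, Measure.map_map (by fun_prop) (by fun_prop)] at h2
  have h3 := congrArg (fun m => m.map (WithLp.ofLp)) h2
  simp only at h3
  rw [Measure.map_map (by fun_prop) (by fun_prop), Measure.map_map (by fun_prop) (by fun_prop)]
    at h3
  have h4 : (WithLp.ofLp ∘ (WithLp.toLp 2 : (J × ι → ℝ) → EuclideanSpace ℝ (J × ι))) = id := by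
    ext; rfl
  rw [h4, Measure.map_id] at h3
  have h5 : (fun (g : J × ι → ℝ) (p : J × ι) => ∑ j', O p.1 j' * g (j', p.2)) =
      WithLp.ofLp ∘ ⇑(rotIso O hO) ∘ WithLp.toLp 2 := by
    ext g p
    simp [rotIso]
  rw [h5]
  exact h3

lemma stdpi_curry {J ι : Type*} [Fintype J] [Fintype ι] :
    (Measure.pi fun _ : J × ι => gaussianReal 0 1).map (fun g j i => g (j, i)) =
      Measure.pi fun _ : J => Measure.pi fun _ : ι => gaussianReal 0 1 := by
  have h := Measure.infinitePi_map_curry (ι := J) (κ := ι) (fun _ _ => gaussianReal 0 1)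
  simp only [Measure.infinitePi_eq_pi] at h
  exact h

lemma stdpi_act {J ι : Type*} [Fintype J] [DecidableEq J] [Fintype ι]
    (O : Matrix J J ℝ) (hO : Oᵀ * O = 1) :
    (Measure.pi fun _ : J => Measure.pi fun _ : ι => gaussianReal 0 1).map
      (act O : (J → ι → ℝ) → (J → ι → ℝ)) =
      Measure.pi fun _ : J => Measure.pi fun _ : ι => gaussianReal 0 1 := by
  rw [← stdpi_curry, Measure.map_map (continuous_act O).measurable (by fun_prop)]
  conv_rhs => rw [← stdpi_rot O hO]
  rw [Measure.map_map (by fun_prop) (by fun_prop)]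
  congr 1
  ext g j i
  simp [act]

/-- `waveOf` as a linear map -/
noncomputable def waveLin (d k : ℕ) (lam : ℝ) (B : Matrix (Fin k) (Fin k) ℝ) :
    (Option (Fin d) × Fin k → ℝ) →ₗ[ℝ] ((Fin k → ℝ) × (Fin d → Fin k → ℝ)) where
  toFun := waveOf d k lam B
  map_add' g h := by
    unfold waveOf
    ext a
    · simp [mul_add, Finset.sum_add_distrib]
    · simp only [Pi.add_apply, Prod.mk_add_mk, ← Finset.sum_add_distrib]
      refine Finset.sum_congr rfl fun b _ => ?_
      rw [Finset.sum_add_distrib]
      ring
  map_smul' c g := by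
    unfold waveOf
    ext a
    · simp [Finset.mul_sum, mul_left_comm]
    · simp only [Pi.smul_apply, smul_eq_mul, Prod.smul_mk, RingHom.id_apply, ← Finset.mul_sum]
      rw [Finset.mul_sum]
      refine Finset.sum_congr rfl fun b _ => ?_
      ring

lemma measurable_waveOf (d k : ℕ) (lam : ℝ) (B : Matrix (Fin k) (Fin k) ℝ) :
    Measurable (waveOf d k lam B) := by
  have : Continuous (waveLin d k lam B) := LinearMap.continuous_of_finiteDimensional _
  exact this.measurable

instance (d k : ℕ) (lam : ℝ) (B : Matrix (Fin k) (Fin k) ℝ) :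
    IsProbabilityMeasure (gaussStar d k lam B) := by
  unfold gaussStar
  exact Measure.isProbabilityMeasure_map (measurable_waveOf d k lam B).aemeasurable

/-- `K` independent Gaussian stars are invariant under rotations of the star index. -/
lemma gaussStar_act {J : Type*} [Fintype J] [DecidableEq J] (d k : ℕ) (lam : ℝ)
    (B : Matrix (Fin k) (Fin k) ℝ) (O : Matrix J J ℝ) (hO : Oᵀ * O = 1) :
    (Measure.pi fun _ : J => gaussStar d k lam B).map (act O) =
      Measure.pi fun _ : J => gaussStar d k lam B := by
  have h1 : (Measure.pi fun _ : J => gaussStar d k lam B) =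
      (Measure.pi fun _ : J => Measure.pi fun _ : Option (Fin d) × Fin k => gaussianReal 0 1).map
        (fun g j => waveLin d k lam B (g j)) := by
    unfold gaussStar
    have := Measure.pi_map_pi (μ := fun _ : J => Measure.pi
      fun _ : Option (Fin d) × Fin k => gaussianReal 0 1) (f := fun _ => waveOf d k lam B)
      (hμ := fun _ => by
        have : IsProbabilityMeasure (gaussStar d k lam B) := inferInstance
        unfold gaussStar at this
        infer_instance)
      (fun _ => (measurable_waveOf d k lam B).aemeasurable)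
    rw [← this]
    rfl
  have hc : Continuous (fun (g : J → Option (Fin d) × Fin k → ℝ) j => waveLin d k lam B (g j)) := by
    have : Continuous (waveLin d k lam B) := LinearMap.continuous_of_finiteDimensional _
    fun_prop
  rw [h1, Measure.map_map (continuous_act O).measurable hc.measurable]
  conv_rhs => rw [← stdpi_act O hO]
  rw [Measure.map_map hc.measurable (continuous_act O).measurable]
  congr 1
  ext1 g
  exact act_comp_linear O (waveLin d k lam B) g

end Vale.Agent.P156.H12
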