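import Vale.Agent.P156.H12.Inst
import Vale.Agent.P156.H12.Gauss
import Vale.Agent.P156.H12.Cpt

/-!
# P156, block E: Theorem II implies the vanishing of the bad events
-/

set_option linter.unusedSectionVars false

namespace Vale.Agent.P156.H12

open MeasureTheory Filter Matrix H490
open scoped Topology BigOperators ENNReal NNReal BoundedContinuousFunction

/-- the star space of `SpecTII` -/
abbrev St (d k : ℕ) : Type := (Fin k → ℝ) × (Fin d → Fin k → ℝ)

/-- coordinates of a star -/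
def co {d k : ℕ} (y : St d k) (a : Option (Fin d)) (r : Fin k) : ℝ :=
  a.elim (y.1 r) (fun i => y.2 i r)

lemma continuous_co {d k : ℕ} (a : Option (Fin d)) (r : Fin k) :
    Continuous fun y : St d k => co y a r := by
  unfold co
  cases a with
  | none => simp only [Option.elim]; fun_prop
  | some i => simp only [Option.elim]; fun_prop

lemma co_act {d k K : ℕ} (O : Matrix (Fin K) (Fin K) ℝ) (y : Fin K → St d k) (j : Fin K)
    (a : Option (Fin d)) (r : Fin k) : co (act O y j) a r = ∑ j', O j j' * co (y j') a r := by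
  unfold co act
  cases a with
  | none => simp [Prod.fst_sum, Finset.sum_apply]
  | some i => simp [Prod.snd_sum, Finset.sum_apply]

/-- the matrix `O ⊗ 1` -/
def tens {J : Type} (D : Type) [DecidableEq D] (O : Matrix J J ℝ) : Matrix (J × D) (J × D) ℝ :=
  fun p q => if p.2 = q.2 then O p.1 q.1 else 0

lemma tens_mul_apply {J D : Type} [Fintype J] [Fintype D] [DecidableEq D] (O : Matrix J J ℝ)
    (A : Matrix (J × D) (J × D) ℝ) (p q : J × D) :
    (tens D O * A) p q = ∑ j, O p.1 j * A (j, p.2) q := by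
  rw [Matrix.mul_apply, Fintype.sum_prod_type]
  refine Finset.sum_congr rfl fun j _ => ?_
  unfold tens
  simp

lemma mul_tensT_apply {J D : Type} [Fintype J] [Fintype D] [DecidableEq D] (O : Matrix J J ℝ)
    (A : Matrix (J × D) (J × D) ℝ) (p q : J × D) :
    (A * (tens D O)ᵀ) p q = ∑ j, A p (j, q.2) * O q.1 j := by
  rw [Matrix.mul_apply, Fintype.sum_prod_type]
  refine Finset.sum_congr rfl fun j _ => ?_
  have h : ∀ y : D, (tens D O)ᵀ (j, y) q = if y = q.2 then O q.1 j else 0 := by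
    intro y
    rw [Matrix.transpose_apply]
    unfold tens
    simp only [eq_comm]
  simp only [h, mul_ite, mul_zero, Finset.sum_ite_eq', Finset.mem_univ, if_true]

lemma conj_quad {J D : Type} {ι : Type*} [Fintype J] [Fintype D] [DecidableEq D] [Fintype ι]
    (O : Matrix J J ℝ) (c : ι → ℝ) (y : ι → J → D → ℝ) :
    tens D O * quad c y * (tens D O)ᵀ = quad c (fun r j a => ∑ j', O j j' * y r j' a) := by
  ext p q
  rw [mul_tensT_apply]
  simp only [tens_mul_apply]
  unfold quad
  simp only [Finset.mul_sum, Finset.sum_mul]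
  rw [Finset.sum_congr rfl fun j _ => Finset.sum_comm]
  rw [Finset.sum_comm]
  refine Finset.sum_congr rfl fun r _ => ?_
  refine Finset.sum_congr rfl fun j' _ => Finset.sum_congr rfl fun j _ => ?_
  ring

lemma tens_K0 (d K : ℕ) (E₀ : ℝ) (O : Matrix (Fin K) (Fin K) ℝ) (hO : O * Oᵀ = 1) :
    tens _ O * K0 d E₀ K * (tens _ O)ᵀ = K0 d E₀ K := by
  ext p q
  rw [mul_tensT_apply]
  simp only [tens_mul_apply]
  unfold K0 KE
  have h1 : ∀ j j' : Fin K, (if (j', p.2).1 = (j, q.2).1 then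
      mdE d E₀ * (-(mE d E₀)) ^ starDist (j', p.2).2 (j, q.2).2 else 0).re =
      if j' = j then (mdE d E₀ * (-(mE d E₀)) ^ starDist p.2 q.2).re else 0 := by
    intro j j'
    simp only
    split_ifs <;> simp
  simp only [h1, mul_ite, mul_zero, Finset.sum_ite_eq', Finset.mem_univ, if_true]
  have h2 : ∑ j, O p.1 j * O q.1 j = if p.1 = q.1 then 1 else 0 := by
    have := congrFun (congrFun hO p.1) q.1
    simpa [Matrix.mul_apply, Matrix.one_apply] using this
  calc _ = (∑ j, O p.1 j * O q.1 j) * (mdE d E₀ * (-(mE d E₀)) ^ starDist p.2 q.2).re := by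
        rw [Finset.sum_mul]
        refine Finset.sum_congr rfl fun j _ => ?_
        ring
    _ = _ := by
        rw [h2]
        split_ifs <;> simp

/-- the matrix built from `K` star values -/
noncomputable def MM {d k K : ℕ} (A0 : Matrix (Fin K × Option (Fin d)) (Fin K × Option (Fin d)) ℝ)
    (C : ℝ) (σ : Fin k → Bool) (y : Fin K → St d k) :
    Matrix (Fin K × Option (Fin d)) (Fin K × Option (Fin d)) ℝ :=
  A0 + quad (fun r => sg (σ r)) (fun r j a => C * co (y j) a r)

lemma continuous_MM {d k K : ℕ}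
    (A0 : Matrix (Fin K × Option (Fin d)) (Fin K × Option (Fin d)) ℝ)
    (C : ℝ) (σ : Fin k → Bool) : Continuous (MM (d := d) A0 C σ) := by
  unfold MM quad
  refine continuous_const.add ?_
  refine continuous_matrix fun a b => ?_
  refine continuous_finsetSum _ fun r _ => ?_
  have h1 : ∀ (j : Fin K) (a : Option (Fin d)), Continuous fun y : Fin K → St d k =>
      co (y j) a r := fun j a => (continuous_co a r).comp (continuous_apply j)
  have h2 := h1 a.1 a.2
  have h3 := h1 b.1 b.2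
  fun_prop

lemma MM_act {d k K : ℕ} (E₀ C : ℝ) (σ : Fin k → Bool) (O : Matrix (Fin K) (Fin K) ℝ)
    (hO : O * Oᵀ = 1) (y : Fin K → St d k) :
    MM (K0 d E₀ K) C σ (act O y) = tens _ O * MM (K0 d E₀ K) C σ y * (tens _ O)ᵀ := by
  unfold MM
  rw [Matrix.mul_add, Matrix.add_mul, tens_K0 d K E₀ O hO, conj_quad]
  congr 2
  ext r j a
  rw [co_act, Finset.mul_sum]
  refine Finset.sum_congr rfl fun j' _ => ?_
  ring

/-- bounded continuous test function of `K` stars -/
noncomputable def psiB {d k K : ℕ}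
    (A0 : Matrix (Fin K × Option (Fin d)) (Fin K × Option (Fin d)) ℝ) (C : ℝ)
    (σ : Fin k → Bool)
    (Φ : Matrix (Fin K × Option (Fin d)) (Fin K × Option (Fin d)) ℝ → ℝ) (hΦ : Continuous Φ)
    (M : ℝ) (hM : ∀ A, |Φ A| ≤ M) : (Fin K → St d k) →ᵇ ℝ :=
  BoundedContinuousFunction.ofNormedAddCommGroup (fun y => Φ (MM A0 C σ y))
    (hΦ.comp (continuous_MM A0 C σ)) M (fun _ => hM _)

@[simp] lemma psiB_apply {d k K : ℕ}
    (A0 : Matrix (Fin K × Option (Fin d)) (Fin K × Option (Fin d)) ℝ) (C : ℝ)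
    (σ : Fin k → Bool)
    (Φ : Matrix (Fin K × Option (Fin d)) (Fin K × Option (Fin d)) ℝ → ℝ) (hΦ : Continuous Φ)
    (M : ℝ) (hM : ∀ A, |Φ A| ≤ M) (y : Fin K → St d k) :
    psiB A0 C σ Φ hΦ M hM y = Φ (MM A0 C σ y) := rfl

/-- Gaussian laws annihilate the functional. -/
lemma gauss_zero {d k K : ℕ} (lam : ℝ) (B : Matrix (Fin k) (Fin k) ℝ) (E₀ C : ℝ)
    (σ : Fin k → Bool) (O : Matrix (Fin K) (Fin K) ℝ) (hO : Oᵀ * O = 1)
    (Θ : Matrix (Fin K × Option (Fin d)) (Fin K × Option (Fin d)) ℝ → ℝ) (hΘ : Continuous Θ)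
    (M : ℝ) (hM : ∀ A, |Θ A| ≤ M) :
    prodInt (J := Fin K) (psiB (K0 d E₀ K) C σ
      (fun A => Θ A - Θ (tens _ O * A * (tens _ O)ᵀ))
      (by fun_prop) (M + M) (fun A => (abs_sub _ _).trans (add_le_add (hM _) (hM _))))
      ⟨gaussStar d k lam B, inferInstance⟩ = 0 := by
  have hO' : O * Oᵀ = 1 := mul_eq_one_comm.1 hO
  unfold prodInt
  simp only [psiB_apply, ProbabilityMeasure.coe_mk]
  have hint : ∀ g : (Fin K → St d k) → ℝ, Continuous g → (∀ y, |g y| ≤ M) →
      Integrable g (Measure.pi fun _ : Fin K => gaussStar d k lam B) := by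
    intro g hg hb
    exact Integrable.of_bound hg.aestronglyMeasurable M (Eventually.of_forall hb)
  rw [integral_sub]
  · have h1 := gaussStar_act (J := Fin K) d k lam B O hO
    have h2 : ∫ a, Θ (MM (K0 d E₀ K) C σ a) ∂(Measure.pi fun _ : Fin K => gaussStar d k lam B) =
        ∫ a, Θ (MM (K0 d E₀ K) C σ (act O a))
          ∂(Measure.pi fun _ : Fin K => gaussStar d k lam B) := by
      conv_lhs => rw [← h1]
      exact integral_map (f := fun a => Θ (MM (K0 d E₀ K) C σ a))
        (continuous_act O).measurable.aemeasurable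
        (hΘ.comp (continuous_MM _ _ _)).aestronglyMeasurable
    rw [h2]
    simp only [MM_act E₀ C σ O hO']
    exact sub_self _
  · exact hint _ (hΘ.comp (continuous_MM _ _ _)) fun y => hM _
  · refine hint _ ?_ fun y => hM _
    have := continuous_MM (d := d) (K0 d E₀ K) C σ
    fun_prop

/-- value of the field on a star -/
def valF {n d k : ℕ} (f : Fin n → Fin k → ℝ) (s : Fin n × (Fin d → Fin n)) : St d k :=
  (f s.1, fun i => f (s.2 i))

lemma co_valF {n d k : ℕ} (f : Fin n → Fin k → ℝ) (s : Fin n × (Fin d → Fin n))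
    (a : Option (Fin d)) (r : Fin k) : co (valF f s) a r = f (vtx s a) r := by
  unfold co valF vtx
  cases a <;> rfl

/-- star law of a field -/
noncomputable def muF {n d k : ℕ} (hn : 0 < n) (G : SimpleGraph (Fin n)) (f : Fin n → Fin k → ℝ) :
    ProbabilityMeasure (St d k) :=
  ⟨(starLaw d hn G).map (valF f),
    Measure.isProbabilityMeasure_map (Measurable.of_discrete).aemeasurable⟩

lemma integral_muF {n d k : ℕ} (hn : 0 < n) {G : SimpleGraph (Fin n)}
    (hG : G ∈ regularGraphs n d) (f : Fin n → Fin k → ℝ) (ψ : St d k →ᵇ ℝ) :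
    ∫ x, ψ x ∂(muF (d := d) hn G f : Measure (St d k)) = starAvg d G f ψ := by
  unfold muF
  rw [ProbabilityMeasure.coe_mk, integral_map (Measurable.of_discrete).aemeasurable
    ψ.continuous.aestronglyMeasurable]
  unfold starLaw
  rw [if_pos hG, integral_unif]
  rfl

lemma prodInt_muF {n d k K : ℕ} (hn : 0 < n) (G : SimpleGraph (Fin n))
    (f : Fin n → Fin k → ℝ) (Ψ : (Fin K → St d k) →ᵇ ℝ) :
    prodInt Ψ (muF (d := d) hn G f) =
      ∫ s, Ψ (fun j => valF f (s j)) ∂(Measure.pi fun _ : Fin K => starLaw d hn G) := by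
  unfold prodInt muF
  have h := Measure.pi_map_pi (μ := fun _ : Fin K => starLaw d hn G)
    (f := fun _ => valF (d := d) f)
    (hμ := fun _ => by
      have := Measure.isProbabilityMeasure_map (μ := starLaw d hn G)
        (f := valF (d := d) f) (Measurable.of_discrete).aemeasurable
      infer_instance)
    (fun _ => (Measurable.of_discrete).aemeasurable)
  simp only [ProbabilityMeasure.coe_mk]
  rw [← h, integral_map (Measurable.of_discrete).aemeasurable
    Ψ.continuous.aestronglyMeasurable]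

lemma norm_sq_le {d k : ℕ} (x : St d k) : ‖x‖ ^ 2 ≤ ∑ a, ∑ r, co x a r ^ 2 := by
  have hS : 0 ≤ ∑ a, ∑ r, co x a r ^ 2 :=
    Finset.sum_nonneg fun _ _ => Finset.sum_nonneg fun _ _ => sq_nonneg _
  have h1 : ∀ a r, |co x a r| ≤ Real.sqrt (∑ a, ∑ r, co x a r ^ 2) := by
    intro a r
    rw [← Real.sqrt_sq_eq_abs]
    apply Real.sqrt_le_sqrt
    calc co x a r ^ 2 ≤ ∑ r, co x a r ^ 2 :=
          Finset.single_le_sum (f := fun r => co x a r ^ 2) (fun _ _ => sq_nonneg _)
            (Finset.mem_univ r)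
      _ ≤ _ := Finset.single_le_sum (f := fun a => ∑ r, co x a r ^ 2)
          (fun _ _ => Finset.sum_nonneg fun _ _ => sq_nonneg _) (Finset.mem_univ a)
  have h2 : ‖x‖ ≤ Real.sqrt (∑ a, ∑ r, co x a r ^ 2) := by
    rw [Prod.norm_def]
    refine max_le ?_ ?_
    · rw [pi_norm_le_iff_of_nonneg (Real.sqrt_nonneg _)]
      intro r
      exact h1 none r
    · rw [pi_norm_le_iff_of_nonneg (Real.sqrt_nonneg _)]
      intro i
      rw [pi_norm_le_iff_of_nonneg (Real.sqrt_nonneg _)]
      intro r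
      exact h1 (some i) r
  calc ‖x‖ ^ 2 ≤ Real.sqrt (∑ a, ∑ r, co x a r ^ 2) ^ 2 := by gcongr
    _ = _ := Real.sq_sqrt hS

lemma muF_tail {n d k : ℕ} (hn : 0 < n) {G : SimpleGraph (Fin n)}
    (hG : G ∈ regularGraphs n d) (f : Fin n → Fin k → ℝ)
    (hf : ∑ v, ∑ a, f v a ^ 2 ≤ k * n) :
    muF (d := d) hn G f ∈ tailSet (St d k) (((d + 1) * k : ℕ) : ℝ≥0) := by
  apply mem_tailSet
  unfold muF
  rw [ProbabilityMeasure.coe_mk, lintegral_map (by fun_prop) (Measurable.of_discrete)]
  rw [← ofReal_integral_eq_lintegral_ofReal Integrable.of_finite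
    (Eventually.of_forall fun s => sq_nonneg _)]
  have h1 : ∫ s, ‖valF (d := d) f s‖ ^ 2 ∂(starLaw d hn G) ≤ ((d + 1) * k : ℕ) := by
    calc ∫ s, ‖valF (d := d) f s‖ ^ 2 ∂(starLaw d hn G)
        ≤ ∫ s, ∑ a : Option (Fin d), ∑ r, f (vtx s a) r ^ 2 ∂(starLaw d hn G) := by
          refine integral_mono Integrable.of_finite Integrable.of_finite fun s => ?_
          have := norm_sq_le (valF (d := d) f s)
          simpa only [co_valF] using this
      _ = ∑ a : Option (Fin d), ∑ r, avg (starsOf d G) (fun s => f (vtx s a) r ^ 2) := by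
          unfold starLaw
          rw [if_pos hG, integral_unif]
          rw [avg_sum]
          refine Finset.sum_congr rfl fun a _ => ?_
          rw [avg_sum]
      _ = ∑ a : Option (Fin d), (∑ v, ∑ r, f v r ^ 2) / n := by
          refine Finset.sum_congr rfl fun a _ => ?_
          rw [Finset.sum_comm, Finset.sum_div]
          refine Finset.sum_congr rfl fun r _ => ?_
          exact avg_star_vtx hG (fun v => f v r ^ 2) a
      _ ≤ ((d + 1) * k : ℕ) := by
          rw [Finset.sum_const, Finset.card_univ, Fintype.card_option, Fintype.card_fin,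
            nsmul_eq_mul]
          have hn' : (0 : ℝ) < n := by exact_mod_cast hn
          have : (∑ v, ∑ r, f v r ^ 2) / (n : ℝ) ≤ k := by
            rw [div_le_iff₀ hn']; exact hf
          push_cast
          gcongr
  calc ENNReal.ofReal (∫ s, ‖valF (d := d) f s‖ ^ 2 ∂(starLaw d hn G))
      ≤ ENNReal.ofReal (((d + 1) * k : ℕ) : ℝ) := ENNReal.ofReal_le_ofReal h1
    _ = _ := by
        rw [ENNReal.ofReal_natCast]
        simp

lemma one_field {n : ℕ} (hn : 0 < n) (d : ℕ) {G : SimpleGraph (Fin n)} {E1 E₀ B C C' : ℝ}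
    (hC : C ≤ C') (hC' : 0 < C') (g : Fin n × (Fin d → Fin n) → Option (Fin d) → ℝ)
    (hg : g = 0 ∨ ∃ (i : Fin n) (β : ℝ), |xx E1 G i| ≤ B ∧ |β| ≤ C ∧
      g = fun s a => β * phi G i (vtx s a)) :
    ∃ f : Fin n → ℝ, (∀ s a, g s a = C' * f (vtx s a)) ∧ ∑ v, f v ^ 2 ≤ n ∧
      ∑ v, ((∑ w, adj G v w * f w) - E₀ * f v) ^ 2 ≤ (|B| / n + |E1 - E₀|) ^ 2 * n := by
  have hn' : (0 : ℝ) < n := by exact_mod_cast hn
  rcases hg with rfl | ⟨i, β, hx, hβ, rfl⟩
  · refine ⟨0, fun s a => by simp, by simp, ?_⟩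
    simp only [Pi.zero_apply, mul_zero, Finset.sum_const_zero, sub_zero]
    have : (∑ _v : Fin n, (0 : ℝ) ^ 2) = 0 := by simp
    rw [this]
    positivity
  · have hb : (β / C') ^ 2 ≤ 1 := by
      rw [div_pow, div_le_one (by positivity), ← sq_abs β]
      have := abs_nonneg β
      gcongr
      exact hβ.trans hC
    have hs : ∑ v, phi G i v ^ 2 = n := by
      have := sum_phi_mul G i i
      simpa only [if_true, ← pow_two] using this
    have hs2 : ∑ v, (β / C' * phi G i v) ^ 2 ≤ n := by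
      calc ∑ v, (β / C' * phi G i v) ^ 2 = (β / C') ^ 2 * ∑ v, phi G i v ^ 2 := by
            rw [Finset.mul_sum]
            exact Finset.sum_congr rfl fun v _ => by ring
        _ ≤ 1 * ∑ v, phi G i v ^ 2 := by
            have : 0 ≤ ∑ v, phi G i v ^ 2 := Finset.sum_nonneg fun _ _ => sq_nonneg _
            gcongr
        _ = n := by rw [one_mul, hs]
    refine ⟨fun v => β / C' * phi G i v, fun s a => ?_, hs2, ?_⟩
    · field_simp
    · have h1 : ∀ v, (∑ w, adj G v w * (β / C' * phi G i w)) - E₀ * (β / C' * phi G i v) =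
          (eig G i - E₀) * (β / C' * phi G i v) := by
        intro v
        have h2 := sum_adj_phi G i v
        have h3 : ∑ w, adj G v w * (β / C' * phi G i w) =
            β / C' * ∑ w, adj G v w * phi G i w := by
          rw [Finset.mul_sum]
          exact Finset.sum_congr rfl fun w _ => by ring
        rw [h3, h2]
        ring
      simp only [h1, mul_pow (eig G i - E₀)]
      rw [← Finset.mul_sum]
      have h4 : |eig G i - E₀| ≤ |B| / n + |E1 - E₀| := by
        have h5 : |eig G i - E1| ≤ |B| / n := by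
          rw [le_div_iff₀ hn']
          unfold xx at hx
          rw [abs_mul, Nat.abs_cast] at hx
          have := le_abs_self B
          nlinarith
        calc |eig G i - E₀| = |(eig G i - E1) + (E1 - E₀)| := by congr 1; ring
          _ ≤ _ := abs_add_le _ _
          _ ≤ _ := by gcongr
      have h6 : (eig G i - E₀) ^ 2 ≤ (|B| / n + |E1 - E₀|) ^ 2 := by
        rw [← sq_abs (eig G i - E₀)]
        gcongr
      have : 0 ≤ ∑ v, (β / C' * phi G i v) ^ 2 := Finset.sum_nonneg fun _ _ => sq_nonneg _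
      calc _ ≤ (|B| / n + |E1 - E₀|) ^ 2 * ∑ v, (β / C' * phi G i v) ^ 2 := by gcongr
        _ ≤ _ := by gcongr

theorem bad_sigma {d : ℕ} (hII : SpecTII d) {𝒰 : Ultrafilter ℕ} {E : ℕ → ℝ} {E₀ : ℝ}
    (h : GoodSeq d 𝒰 E E₀) (K k : ℕ) (B C : ℝ) {ε : ℝ} (hε : 0 < ε) (σ : Fin k → Bool)
    (O : Matrix (Fin K) (Fin K) ℝ) (hO : Oᵀ * O = 1)
    (Θ : Matrix (Fin K × Option (Fin d)) (Fin K × Option (Fin d)) ℝ → ℝ) (hΘ : Continuous Θ)
    (M : ℝ) (hM : ∀ A, |Θ A| ≤ M) :
    Tendsto (fun n : Idx d => (gEnv d E n).P.real {ω | ∃ g : Fin k → (gEnv d E n).S →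
      Option (Fin d) → ℝ, (gEnv d E n).Cls ω B C g ∧
      ε < |∫ s, (Θ (K0 d E₀ K + quad (fun r => sg (σ r)) (fun r j => g r (s j))) -
        Θ (tens _ O * (K0 d E₀ K + quad (fun r => sg (σ r)) (fun r j => g r (s j))) *
          (tens _ O)ᵀ)) ∂((gEnv d E n).st (Fin K) ω)|}) (lU d 𝒰) (𝓝 0) := by
  classical
  set C' : ℝ := max C 1 with hC'
  have hC'p : 0 < C' := lt_max_of_lt_right one_pos
  set Ψ : (Fin K → St d k) →ᵇ ℝ := psiB (K0 d E₀ K) C' σ
      (fun A => Θ A - Θ (tens _ O * A * (tens _ O)ᵀ))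
      (by fun_prop) (M + M) (fun A => (abs_sub _ _).trans (add_le_add (hM _) (hM _))) with hΨ
  obtain ⟨T, ε1, hε1, hT⟩ := exists_tests (St := St d k) (((d + 1) * k : ℕ) : ℝ≥0)
    (prodInt Ψ) (continuous_prodInt Ψ)
    {γ | ∃ B' : Matrix (Fin k) (Fin k) ℝ, γ = ⟨gaussStar d k E₀ B', inferInstance⟩}
    (by
      rintro γ ⟨B', rfl⟩
      exact gauss_zero E₀ B' E₀ C' σ O hO Θ hΘ M hM) hε
  rw [Metric.tendsto_nhds]
  intro η hη
  obtain ⟨δ, hδ, hev⟩ := hII E₀ h.bulk k T (min ε1 (η / 2)) (lt_min hε1 (by positivity))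
  have hle : (𝒰 : Filter ℕ) ≤ admissible d := by
    unfold admissible
    refine le_inf h.atTop ?_
    rw [le_principal_iff]
    exact h.even
  have hq : ∀ᶠ n in (𝒰 : Filter ℕ), (|B| / n + |E n - E₀|) ^ 2 * k ≤ δ := by
    have t1 : Tendsto (fun n : ℕ => |B| / (n : ℝ)) 𝒰 (𝓝 0) :=
      (tendsto_const_div_atTop_nhds_zero_nat |B|).mono_left h.atTop
    have t2 : Tendsto (fun n : ℕ => |E n - E₀|) 𝒰 (𝓝 0) := by
      have := (h.lim.sub_const E₀).abs
      simpa using this
    have t3 : Tendsto (fun n : ℕ => (|B| / n + |E n - E₀|) ^ 2 * k) 𝒰 (𝓝 0) := by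
      have := ((t1.add t2).pow 2).mul_const (k : ℝ)
      simpa using this
    filter_upwards [t3.eventually_lt_const hδ] with n hn using hn.le
  filter_upwards [ev_lU (hle hev), ev_lU hq] with n h1 h2
  have hnp := n.2.1
  rw [Real.dist_eq, sub_zero, abs_of_nonneg measureReal_nonneg, gEnv_real]
  refine lt_of_le_of_lt (le_trans (prob_mono ?_) h1) ?_
  · intro G hG hGbad
    obtain ⟨g, hcls, hgε⟩ := hGbad
    have hch : ∀ r : Fin k, ∃ f : Fin n.1 → ℝ, (∀ s a, g r s a = C' * f (vtx s a)) ∧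
        ∑ v, f v ^ 2 ≤ (n.1 : ℝ) ∧
        ∑ v, ((∑ w, adj G v w * f w) - E₀ * f v) ^ 2 ≤
          (|B| / n.1 + |E n.1 - E₀|) ^ 2 * n.1 := by
      intro r
      refine one_field hnp d (E1 := E n.1) (le_max_left C 1) hC'p (g r) ?_
      rcases hcls r with h0 | ⟨i, β, hx, hβ, hgr⟩
      · exact Or.inl h0
      · refine Or.inr ⟨i, β, hx, hβ, ?_⟩
        rw [hgr]
        funext s a
        show β * (if G ∈ regularGraphs n.1 d then phi G i (vtx s a) else 0) = _
        rw [if_pos hG]
    choose f hf1 hf2 hf3 using hch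
    refine ⟨fun v r => f r v, ?_, ?_, ?_⟩
    · rw [Finset.sum_comm]
      calc ∑ r, ∑ v, f r v ^ 2 ≤ ∑ _r : Fin k, (n.1 : ℝ) := Finset.sum_le_sum fun r _ => hf2 r
        _ = k * n.1 := by simp
    · rw [Finset.sum_comm]
      calc ∑ r, ∑ v, ((∑ w, adj G v w * f r w) - E₀ * f r v) ^ 2
          ≤ ∑ _r : Fin k, (|B| / n.1 + |E n.1 - E₀|) ^ 2 * n.1 :=
            Finset.sum_le_sum fun r _ => hf3 r
        _ = ((|B| / n.1 + |E n.1 - E₀|) ^ 2 * k) * n.1 := by simp; ring
        _ ≤ δ * n.1 := by gcongr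
    · intro B'
      have hmem := muF_tail (d := d) hnp hG (fun v r => f r v) (by
        rw [Finset.sum_comm]
        calc ∑ r, ∑ v, f r v ^ 2 ≤ ∑ _r : Fin k, (n.1 : ℝ) := Finset.sum_le_sum fun r _ => hf2 r
          _ = k * n.1 := by simp)
      have hbig : ε ≤ |prodInt Ψ (muF (d := d) hnp G (fun v r => f r v))| := by
        rw [prodInt_muF]
        refine hgε.le.trans (le_of_eq ?_)
        congr 1
        refine integral_congr_ae (Eventually.of_forall fun s => ?_)
        simp only [hΨ, psiB_apply]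
        have hMM : MM (K0 d E₀ K) C' σ (fun j => valF (fun v r => f r v) (s j)) =
            K0 d E₀ K + quad (fun r => sg (σ r)) (fun r j => g r (s j)) := by
          unfold MM
          congr 2
          ext r j a
          have hco := co_valF (d := d) (fun v r => f r v) (s j) a r
          exact (congrArg (fun t => C' * t) hco).trans (hf1 r (s j) a).symm
        rw [hMM]
      obtain ⟨ψ, hψ, hψ2⟩ := hT _ hmem hbig ⟨gaussStar d k E₀ B', inferInstance⟩ ⟨B', rfl⟩
      refine ⟨ψ, hψ, lt_of_le_of_lt (min_le_left _ _) ?_⟩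
      rw [integral_muF hnp hG] at hψ2
      exact hψ2
  · exact lt_of_le_of_lt (min_le_right _ _) (by linarith)

end Vale.Agent.P156.H12
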