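import Mathlib

/-!
# P156, block E1: asymptotic orthogonal invariance of the resolvent on `K` random stars

Abstract form.  The environment at time `n` is a finite probability space of graphs, a star
space with a law depending on the graph, the rescaled eigenvalues `x i` and the values `F i` of the
rescaled eigenvectors on the star.
-/

set_option linter.unusedSectionVars false

namespace Vale.Agent.P156.H12

open MeasureTheory Filter Matrix
open scoped Topology BigOperators

/-- One environment: `Ω` graphs, `S` star positions, `ι` eigenvalue index, `D` star coordinates. -/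
structure Env (D : Type) where
  Ω : Type
  S : Type
  ι : Type
  [mΩ : MeasurableSpace Ω]
  [fΩ : Finite Ω]
  [dΩ : DiscreteMeasurableSpace Ω]
  [mS : MeasurableSpace S]
  [fS : Finite S]
  [dS : DiscreteMeasurableSpace S]
  [fι : Fintype ι]
  P : Measure Ω
  [hP : IsProbabilityMeasure P]
  κ : Ω → Measure S
  [hκ : ∀ ω, IsProbabilityMeasure (κ ω)]
  x : Ω → ι → ℝ
  F : Ω → ι → S → D → ℝ
  hF : ∀ ω i a, ∫ s, (F ω i s a) ^ 2 ∂(κ ω) ≤ 1

attribute [instance] Env.mΩ Env.fΩ Env.dΩ Env.mS Env.fS Env.dS Env.fι Env.hP Env.hκ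

variable {J D : Type} [Fintype J] [Fintype D] [DecidableEq J] [DecidableEq D]

/-- the `K = |J|` independent stars, given the graph -/
noncomputable def Env.st (e : Env D) (J : Type) [Fintype J] (ω : e.Ω) : Measure (J → e.S) :=
  Measure.pi (fun _ => e.κ ω)

instance (e : Env D) (ω : e.Ω) : IsProbabilityMeasure (e.st J ω) := by
  unfold Env.st; infer_instance

/-- expectation over graph and stars -/
noncomputable def Env.E (e : Env D) (J : Type) [Fintype J] (Z : e.Ω → (J → e.S) → ℝ) : ℝ :=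
  ∫ ω, ∫ s, Z ω s ∂(e.st J ω) ∂e.P

/-- weighted sum of rank one matrices -/
def quad {ι : Type*} [Fintype ι] (c : ι → ℝ) (y : ι → J → D → ℝ) :
    Matrix (J × D) (J × D) ℝ :=
  fun a b => ∑ i, c i * (y i a.1 a.2 * y i b.1 b.2)

/-- the matrix `∑ c(x_i) F_i F_iᵀ` on the stars -/
def Env.mat (e : Env D) (c : ℝ → ℝ) (ω : e.Ω) (s : J → e.S) : Matrix (J × D) (J × D) ℝ :=
  quad (fun i => c (e.x ω i)) (fun i j => e.F ω i (s j))

/-- entrywise `ℓ¹` norm -/
def nrm (A : Matrix (J × D) (J × D) ℝ) : ℝ := ∑ a, ∑ b, |A a b|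

lemma nrm_nonneg (A : Matrix (J × D) (J × D) ℝ) : 0 ≤ nrm A :=
  Finset.sum_nonneg fun _ _ => Finset.sum_nonneg fun _ _ => abs_nonneg _

lemma nrm_add (A B : Matrix (J × D) (J × D) ℝ) : nrm (A + B) ≤ nrm A + nrm B := by
  unfold nrm
  rw [← Finset.sum_add_distrib]
  refine Finset.sum_le_sum fun a _ => ?_
  rw [← Finset.sum_add_distrib]
  exact Finset.sum_le_sum fun b _ => abs_add_le _ _

lemma nrm_entry (A : Matrix (J × D) (J × D) ℝ) (a b) : |A a b| ≤ nrm A := by
  unfold nrm
  calc |A a b| ≤ ∑ b', |A a b'| :=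
        Finset.single_le_sum (f := fun b' => |A a b'|) (fun _ _ => abs_nonneg _) (Finset.mem_univ b)
    _ ≤ _ := Finset.single_le_sum (f := fun a' => ∑ b', |A a' b'|)
        (fun _ _ => Finset.sum_nonneg fun _ _ => abs_nonneg _) (Finset.mem_univ a)

/-! ### scalar lemmas -/

/-- regularised inverse -/
noncomputable def rL (L x : ℝ) : ℝ := x / (x ^ 2 + L ^ 2)
/-- remainder of the inverse -/
noncomputable def cL (L x : ℝ) : ℝ := L ^ 2 / (x * (x ^ 2 + L ^ 2))
/-- the weight of T1 -/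
noncomputable def wt (x : ℝ) : ℝ := min 1 (x ^ 2)⁻¹

lemma inv_split (L x : ℝ) : x⁻¹ = rL L x + cL L x := by
  unfold rL cL
  rcases eq_or_ne x 0 with rfl | hx
  · simp
  · have : x ^ 2 + L ^ 2 ≠ 0 := by positivity
    field_simp

lemma abs_cL_le_inv (L x : ℝ) : |cL L x| ≤ |x|⁻¹ := by
  unfold cL
  rcases eq_or_ne x 0 with rfl | hx
  · simp
  · have h1 : 0 < x ^ 2 := by positivity
    rw [abs_div, abs_mul, abs_of_nonneg (by positivity : 0 ≤ L ^ 2),
      abs_of_pos (by positivity : 0 < x ^ 2 + L ^ 2), div_le_iff₀ (by positivity)]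
    have hx' : 0 < |x| := abs_pos.2 hx
    rw [← mul_assoc, inv_mul_cancel₀ hx'.ne', one_mul]
    linarith

lemma abs_cL_le_cube (L x : ℝ) : |cL L x| ≤ L ^ 2 / |x| ^ 3 := by
  unfold cL
  rcases eq_or_ne x 0 with rfl | hx
  · simp
  · have h1 : 0 < x ^ 2 := by positivity
    have hx' : 0 < |x| := abs_pos.2 hx
    rw [abs_div, abs_mul, abs_of_nonneg (by positivity : 0 ≤ L ^ 2),
      abs_of_pos (by positivity : 0 < x ^ 2 + L ^ 2)]
    gcongr
    calc |x| ^ 3 = |x| * x ^ 2 := by rw [← sq_abs]; ring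
      _ ≤ |x| * (x ^ 2 + L ^ 2) := by gcongr; nlinarith [sq_nonneg L]

lemma wt_nonneg (x : ℝ) : 0 ≤ wt x := le_min zero_le_one (by positivity)

lemma abs_cL_tail {L B x : ℝ} (hB : 1 ≤ B) (hx : B < |x|) : |cL L x| ≤ L ^ 2 / B * wt x := by
  have hx0 : 0 < |x| := by linarith
  have h2 : wt x = (x ^ 2)⁻¹ := by
    unfold wt
    apply min_eq_right
    rw [← sq_abs]
    apply inv_le_one_of_one_le₀
    nlinarith
  refine (abs_cL_le_cube L x).trans ?_
  rw [h2, ← sq_abs x]
  rw [show L ^ 2 / |x| ^ 3 = L ^ 2 / |x| * (|x| ^ 2)⁻¹ by field_simp]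
  gcongr

lemma abs_cL_all {L ε x : ℝ} (hε : 0 < ε) (hε1 : ε ≤ 1) (hx : ε < |x|) :
    |cL L x| ≤ (L ^ 2 + ε⁻¹) * wt x := by
  have hx0 : 0 < |x| := by linarith
  have hεi : 1 ≤ ε⁻¹ := (one_le_inv₀ hε).2 hε1
  rcases le_total 1 |x| with h1 | h1
  · have h2 : wt x = (x ^ 2)⁻¹ := by
      unfold wt
      apply min_eq_right
      rw [← sq_abs]
      apply inv_le_one_of_one_le₀
      nlinarith
    refine (abs_cL_le_cube L x).trans ?_
    rw [h2, ← sq_abs x, show L ^ 2 / |x| ^ 3 = L ^ 2 / |x| * (|x| ^ 2)⁻¹ by field_simp]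
    gcongr
    calc L ^ 2 / |x| ≤ L ^ 2 / 1 := by gcongr
      _ ≤ _ := by simp; linarith
  · have h2 : wt x = 1 := by
      unfold wt
      apply min_eq_left
      rw [← sq_abs]
      apply (one_le_inv₀ (by positivity)).2
      nlinarith
    refine (abs_cL_le_inv L x).trans ?_
    rw [h2, mul_one]
    have : |x|⁻¹ ≤ ε⁻¹ := by gcongr
    nlinarith [sq_nonneg L]

/-! ### integrals of rank one matrices -/

lemma Env.int_F_sq (e : Env D) (ω : e.Ω) (i : e.ι) (j : J) (a : D) :
    ∫ s, (e.F ω i (s j) a) ^ 2 ∂(e.st J ω) ≤ 1 := by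
  have h := (measurePreserving_eval (fun _ : J => e.κ ω) j)
  have h2 : ∫ s, (e.F ω i (s j) a) ^ 2 ∂(e.st J ω) = ∫ s, (e.F ω i s a) ^ 2 ∂(e.κ ω) := by
    unfold Env.st
    conv_rhs => rw [← h.map_eq]
    rw [integral_map h.measurable.aemeasurable]
    exact (Measurable.of_discrete).aestronglyMeasurable
  rw [h2]
  exact e.hF ω i a

lemma Env.int_FF (e : Env D) (ω : e.Ω) (i : e.ι) (a b : J × D) :
    ∫ s, |e.F ω i (s a.1) a.2 * e.F ω i (s b.1) b.2| ∂(e.st J ω) ≤ 1 := by
  have h1 := e.int_F_sq (J := J) ω i a.1 a.2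
  have h2 := e.int_F_sq (J := J) ω i b.1 b.2
  calc ∫ s, |e.F ω i (s a.1) a.2 * e.F ω i (s b.1) b.2| ∂(e.st J ω)
      ≤ ∫ s, ((e.F ω i (s a.1) a.2) ^ 2 / 2 + (e.F ω i (s b.1) b.2) ^ 2 / 2) ∂(e.st J ω) := by
        refine integral_mono Integrable.of_finite Integrable.of_finite fun s => ?_
        simp only
        rw [abs_mul]
        nlinarith [sq_nonneg (|e.F ω i (s a.1) a.2| - |e.F ω i (s b.1) b.2|),
          sq_abs (e.F ω i (s a.1) a.2), sq_abs (e.F ω i (s b.1) b.2)]
    _ = (∫ s, (e.F ω i (s a.1) a.2) ^ 2 ∂(e.st J ω)) / 2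
        + (∫ s, (e.F ω i (s b.1) b.2) ^ 2 ∂(e.st J ω)) / 2 := by
        rw [integral_add Integrable.of_finite Integrable.of_finite, integral_div, integral_div]
    _ ≤ 1 := by linarith

/-- number of entries -/
noncomputable def cW (J D : Type) [Fintype J] [Fintype D] : ℝ :=
  (Fintype.card (J × D) : ℝ) ^ 2

lemma cW_nonneg : 0 ≤ cW J D := by unfold cW; positivity

lemma Env.int_nrm_mat (e : Env D) (c : ℝ → ℝ) (ω : e.Ω) :
    ∫ s, nrm (e.mat (J := J) c ω s) ∂(e.st J ω) ≤ cW J D * ∑ i, |c (e.x ω i)| := by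
  calc ∫ s, nrm (e.mat (J := J) c ω s) ∂(e.st J ω)
      ≤ ∫ s, ∑ a : J × D, ∑ b : J × D, ∑ i,
          |c (e.x ω i)| * |e.F ω i (s a.1) a.2 * e.F ω i (s b.1) b.2| ∂(e.st J ω) := by
        refine integral_mono Integrable.of_finite Integrable.of_finite fun s => ?_
        unfold nrm Env.mat quad
        refine Finset.sum_le_sum fun a _ => Finset.sum_le_sum fun b _ => ?_
        refine (Finset.abs_sum_le_sum_abs _ _).trans (Finset.sum_le_sum fun i _ => ?_)
        rw [abs_mul]
    _ = ∑ a : J × D, ∑ b : J × D, ∑ i, |c (e.x ω i)| *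
          ∫ s, |e.F ω i (s a.1) a.2 * e.F ω i (s b.1) b.2| ∂(e.st J ω) := by
        rw [integral_finsetSum _ fun _ _ => Integrable.of_finite]
        refine Finset.sum_congr rfl fun a _ => ?_
        rw [integral_finsetSum _ fun _ _ => Integrable.of_finite]
        refine Finset.sum_congr rfl fun b _ => ?_
        rw [integral_finsetSum _ fun _ _ => Integrable.of_finite]
        refine Finset.sum_congr rfl fun i _ => ?_
        rw [integral_const_mul]
    _ ≤ ∑ a : J × D, ∑ b : J × D, ∑ i, |c (e.x ω i)| * 1 := by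
        gcongr with a _ b _ i _
        exact e.int_FF ω i a b
    _ = cW J D * ∑ i, |c (e.x ω i)| := by
        simp only [mul_one, Finset.sum_const, Finset.card_univ, nsmul_eq_mul, cW]
        ring

/-! ### the near part as a sum over `Fin k` -/

/-- sign of a Boolean -/
def sg (b : Bool) : ℝ := if b then 1 else -1

/-- admissible `k`-tuples: each function is `0` or a bounded multiple of an `F i` with
`|x i| ≤ B` -/
def Env.Cls (e : Env D) (ω : e.Ω) (B C : ℝ) {k : ℕ} (g : Fin k → e.S → D → ℝ) : Prop :=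
  ∀ r, g r = 0 ∨ ∃ (i : e.ι) (β : ℝ), |e.x ω i| ≤ B ∧ |β| ≤ C ∧ g r = fun s a => β * e.F ω i s a

/-- truncated coefficient -/
noncomputable def far (c : ℝ → ℝ) (B x : ℝ) : ℝ := if |x| ≤ B then 0 else c x

lemma Env.near (e : Env D) (c : ℝ → ℝ) (ω : e.Ω) {B C : ℝ} {k : ℕ} (hC : 0 ≤ C)
    (hc : ∀ i, |c (e.x ω i)| ≤ C ^ 2)
    (hk : (Finset.univ.filter fun i => |e.x ω i| ≤ B).card ≤ k) :
    ∃ (σ : Fin k → Bool) (g : Fin k → e.S → D → ℝ), e.Cls ω B C g ∧ ∀ s : J → e.S,
      e.mat c ω s = quad (fun r => sg (σ r)) (fun r j => g r (s j)) + e.mat (far c B) ω s := by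
  classical
  set I : Finset e.ι := Finset.univ.filter fun i => |e.x ω i| ≤ B with hI
  have hcard : Fintype.card I ≤ Fintype.card (Fin k) := by simpa using hk
  obtain ⟨f⟩ := Function.Embedding.nonempty_of_card_le hcard
  let g : Fin k → e.S → D → ℝ := fun r =>
    if h : ∃ i : I, f i = r then
      fun s a => Real.sqrt |c (e.x ω h.choose)| * e.F ω h.choose s a
    else 0
  let σ : Fin k → Bool := fun r =>
    if h : ∃ i : I, f i = r then decide (0 ≤ c (e.x ω h.choose)) else true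
  have hg : ∀ i : I, g (f i) = fun s a => Real.sqrt |c (e.x ω i)| * e.F ω i s a := by
    intro i
    have h : ∃ i' : I, f i' = f i := ⟨i, rfl⟩
    have h2 : h.choose = i := f.injective h.choose_spec
    simp only [g, dif_pos h, h2]
  have hσ : ∀ i : I, σ (f i) = decide (0 ≤ c (e.x ω i)) := by
    intro i
    have h : ∃ i' : I, f i' = f i := ⟨i, rfl⟩
    have h2 : h.choose = i := f.injective h.choose_spec
    simp only [σ, dif_pos h, h2]
  have hg0 : ∀ r, (¬ ∃ i : I, f i = r) → g r = 0 := fun r h => by simp only [g, dif_neg h]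
  refine ⟨σ, g, ?_, ?_⟩
  · intro r
    by_cases h : ∃ i : I, f i = r
    · obtain ⟨i, rfl⟩ := h
      refine Or.inr ⟨i, Real.sqrt |c (e.x ω i)|, ?_, ?_, hg i⟩
      · exact (Finset.mem_filter.1 i.2).2
      · rw [abs_of_nonneg (Real.sqrt_nonneg _)]
        calc Real.sqrt |c (e.x ω i)| ≤ Real.sqrt (C ^ 2) := Real.sqrt_le_sqrt (hc i)
          _ = C := Real.sqrt_sq hC
    · exact Or.inl (hg0 r h)
  · intro s
    ext a b
    rw [Matrix.add_apply]
    unfold Env.mat quad
    have h1 : ∑ i, c (e.x ω i) * (e.F ω i (s a.1) a.2 * e.F ω i (s b.1) b.2)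
        = ∑ i : I, c (e.x ω i) * (e.F ω i (s a.1) a.2 * e.F ω i (s b.1) b.2)
          + ∑ i, far c B (e.x ω i) * (e.F ω i (s a.1) a.2 * e.F ω i (s b.1) b.2) := by
      rw [Finset.sum_coe_sort I (fun i => c (e.x ω i) *
        (e.F ω i (s a.1) a.2 * e.F ω i (s b.1) b.2)), hI, Finset.sum_filter,
        ← Finset.sum_add_distrib]
      refine Finset.sum_congr rfl fun i _ => ?_
      unfold far
      split_ifs <;> simp
    rw [h1]
    congr 1
    refine Finset.sum_of_injOn f f.injective.injOn (by simp) ?_ ?_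
    · intro r _ hr
      have : ¬ ∃ i : I, f i = r := by
        rintro ⟨i, rfl⟩
        exact hr ⟨i, by simp, rfl⟩
      beta_reduce
      rw [hg0 r this]
      simp
    · intro i _
      beta_reduce
      rw [hg i, hσ i]
      unfold sg
      by_cases h0 : 0 ≤ c (e.x ω i)
      · simp only [h0, decide_true, if_true, one_mul]
        rw [abs_of_nonneg h0]
        have := Real.mul_self_sqrt h0
        calc c (e.x ω i) * (e.F ω i (s a.1) a.2 * e.F ω i (s b.1) b.2)
            = (Real.sqrt (c (e.x ω i)) * Real.sqrt (c (e.x ω i))) *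
              (e.F ω i (s a.1) a.2 * e.F ω i (s b.1) b.2) := by rw [this]
          _ = _ := by ring
      · simp only [h0, decide_false, Bool.false_eq_true, if_false]
        push Not at h0
        rw [abs_of_neg h0]
        have := Real.mul_self_sqrt (show 0 ≤ - c (e.x ω i) by linarith)
        calc c (e.x ω i) * (e.F ω i (s a.1) a.2 * e.F ω i (s b.1) b.2)
            = -(Real.sqrt (-c (e.x ω i)) * Real.sqrt (-c (e.x ω i))) *
              (e.F ω i (s a.1) a.2 * e.F ω i (s b.1) b.2) := by rw [this]; ring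
          _ = _ := by ring

/-! ### expectation calculus -/

lemma Env.E_mono (e : Env D) {Z W : e.Ω → (J → e.S) → ℝ} (h : ∀ ω s, Z ω s ≤ W ω s) :
    e.E J Z ≤ e.E J W := by
  unfold Env.E
  exact integral_mono Integrable.of_finite Integrable.of_finite fun ω =>
    integral_mono Integrable.of_finite Integrable.of_finite (h ω)

lemma Env.E_add (e : Env D) (Z W : e.Ω → (J → e.S) → ℝ) :
    e.E J (fun ω s => Z ω s + W ω s) = e.E J Z + e.E J W := by
  unfold Env.E
  rw [← integral_add Integrable.of_finite Integrable.of_finite]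
  refine integral_congr_ae (Eventually.of_forall fun ω => ?_)
  exact integral_add Integrable.of_finite Integrable.of_finite

lemma Env.E_const_mul (e : Env D) (c : ℝ) (Z : e.Ω → (J → e.S) → ℝ) :
    e.E J (fun ω s => c * Z ω s) = c * e.E J Z := by
  unfold Env.E
  simp only [integral_const_mul]

lemma Env.E_graph (e : Env D) (Z : e.Ω → ℝ) :
    e.E J (fun ω _ => Z ω) = ∫ ω, Z ω ∂e.P := by
  unfold Env.E
  simp

lemma Env.E_set (e : Env D) (A : Set e.Ω) [DecidablePred (· ∈ A)] :
    e.E J (fun ω _ => if ω ∈ A then (1 : ℝ) else 0) = e.P.real A := by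
  rw [e.E_graph]
  have : (fun ω => if ω ∈ A then (1 : ℝ) else 0) = A.indicator (fun _ => (1 : ℝ)) := by
    ext ω; simp [Set.indicator_apply]
  rw [this, integral_indicator (MeasurableSet.of_discrete)]
  simp

/-- the hypotheses T1, T2, T4 along a filter -/
structure Hyp {N : Type*} (l : Filter N) (e : N → Env D) (K0 : Matrix (J × D) (J × D) ℝ) :
    Prop where
  T1 : ∃ C0 : ℝ, ∀ᶠ n in l, ∫ ω, ∑ i, wt ((e n).x ω i) ∂(e n).P ≤ C0
  T2 : ∀ ε > 0, ∃ ε0 > 0, ∀ᶠ n in l, (e n).P.real {ω | ∃ i, |(e n).x ω i| ≤ ε0} ≤ ε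
  T4 : ∀ ε > 0, ∃ L : ℝ, ∀ᶠ n in l,
    (e n).E J (fun ω s => min 1 (nrm ((e n).mat (rL L) ω s - K0))) ≤ ε

/-- the resolvent at the real energy -/
noncomputable def Env.G (e : Env D) (ω : e.Ω) (s : J → e.S) : Matrix (J × D) (J × D) ℝ :=
  e.mat (fun x => x⁻¹) ω s

lemma Env.G_split (e : Env D) (L : ℝ) (ω : e.Ω) (s : J → e.S) :
    e.G ω s = e.mat (rL L) ω s + e.mat (cL L) ω s := by
  ext a b
  rw [Matrix.add_apply]
  unfold Env.G Env.mat quad
  rw [← Finset.sum_add_distrib]
  refine Finset.sum_congr rfl fun i _ => ?_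
  beta_reduce
  rw [inv_split L]
  ring

lemma E_wt_nonneg (e : Env D) : 0 ≤ ∫ ω, ∑ i, wt (e.x ω i) ∂e.P :=
  integral_nonneg fun _ => Finset.sum_nonneg fun _ _ => wt_nonneg _

open Classical in
lemma Hyp.tight {N : Type*} {l : Filter N} {e : N → Env D} {K0 : Matrix (J × D) (J × D) ℝ}
    (h : Hyp l e K0) {ε : ℝ} (hε : 0 < ε) :
    ∃ r : ℝ, 0 ≤ r ∧ ∀ᶠ n in l,
      (e n).E J (fun ω s => if r < nrm ((e n).G ω s) then (1 : ℝ) else 0) ≤ ε := by
  obtain ⟨C0, hC0⟩ := h.T1
  obtain ⟨ε1, hε1, h2⟩ := h.T2 (ε / 3) (by positivity)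
  obtain ⟨L, h4⟩ := h.T4 (ε / 3) (by positivity)
  set ε0 := min ε1 1 with hε0
  have hε0p : 0 < ε0 := lt_min hε1 one_pos
  set C1 := max C0 0 with hC1
  set ρ : ℝ := cW J D * (L ^ 2 + ε0⁻¹) * C1 * (3 / ε) + 1 with hρ
  have hρp : 0 < ρ := by
    have := cW_nonneg (J := J) (D := D)
    have : 0 ≤ C1 := le_max_right _ _
    positivity
  refine ⟨nrm K0 + 1 + ρ, by have := nrm_nonneg K0; linarith, ?_⟩
  filter_upwards [hC0, h2, h4] with n g1 g2 g4
  have key : ∀ ω s, (if nrm K0 + 1 + ρ < nrm ((e n).G ω s) then (1 : ℝ) else 0) ≤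
      min 1 (nrm ((e n).mat (rL L) ω s - K0)) + ((if ω ∈ {ω | ∃ i, |(e n).x ω i| ≤ ε1} then
      (1 : ℝ) else 0) + (if ω ∈ {ω | ∃ i, |(e n).x ω i| ≤ ε1} then 0 else
      nrm ((e n).mat (J := J) (cL L) ω s) / ρ)) := by
    intro ω s
    have n1 := nrm_nonneg ((e n).mat (J := J) (rL L) ω s - K0)
    have n2 := nrm_nonneg ((e n).mat (J := J) (cL L) ω s)
    have m1 : 0 ≤ min 1 (nrm ((e n).mat (J := J) (rL L) ω s - K0)) := le_min zero_le_one n1
    split_ifs with c1 c2 c2
    · linarith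
    · have t1 : nrm ((e n).G ω s) ≤ nrm ((e n).mat (rL L) ω s - K0) + nrm K0 +
          nrm ((e n).mat (J := J) (cL L) ω s) := by
        rw [(e n).G_split L]
        calc nrm ((e n).mat (rL L) ω s + (e n).mat (cL L) ω s)
            = nrm (((e n).mat (rL L) ω s - K0) + K0 + (e n).mat (cL L) ω s) := by
              congr 1; abel
          _ ≤ nrm (((e n).mat (rL L) ω s - K0) + K0) + _ := nrm_add _ _
          _ ≤ _ := by gcongr; exact nrm_add _ _
      rcases le_total 1 (nrm ((e n).mat (J := J) (rL L) ω s - K0)) with c3 | c3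
      · rw [min_eq_left c3]
        have : 0 ≤ nrm ((e n).mat (J := J) (cL L) ω s) / ρ := by positivity
        linarith
      · have : 1 ≤ nrm ((e n).mat (J := J) (cL L) ω s) / ρ := by
          rw [le_div_iff₀ hρp]; linarith
        linarith
    · linarith
    · have : 0 ≤ nrm ((e n).mat (J := J) (cL L) ω s) / ρ := by positivity
      linarith
  refine ((e n).E_mono key).trans ?_
  rw [(e n).E_add, (e n).E_add, (e n).E_set]
  have l3 : (e n).E J (fun ω s => if ω ∈ {ω | ∃ i, |(e n).x ω i| ≤ ε1} then 0 else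
      nrm ((e n).mat (J := J) (cL L) ω s) / ρ) ≤ ε / 3 := by
    calc (e n).E J (fun ω s => if ω ∈ {ω | ∃ i, |(e n).x ω i| ≤ ε1} then 0 else
          nrm ((e n).mat (J := J) (cL L) ω s) / ρ)
        ≤ ∫ ω, cW J D * (L ^ 2 + ε0⁻¹) / ρ * ∑ i, wt ((e n).x ω i) ∂(e n).P := by
          unfold Env.E
          refine integral_mono Integrable.of_finite Integrable.of_finite fun ω => ?_
          have hw : 0 ≤ ∑ i, wt ((e n).x ω i) := Finset.sum_nonneg fun _ _ => wt_nonneg _
          have hcW := cW_nonneg (J := J) (D := D)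
          beta_reduce
          by_cases c2 : ω ∈ {ω | ∃ i, |(e n).x ω i| ≤ ε1}
          · simp only [c2, if_true, integral_zero]
            positivity
          · simp only [c2, if_false]
            rw [integral_div]
            have := (e n).int_nrm_mat (J := J) (cL L) ω
            have h5 : ∑ i, |cL L ((e n).x ω i)| ≤ (L ^ 2 + ε0⁻¹) * ∑ i, wt ((e n).x ω i) := by
              rw [Finset.mul_sum]
              refine Finset.sum_le_sum fun i _ => abs_cL_all hε0p (min_le_right _ _) ?_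
              simp only [Set.mem_ofPred_eq, not_exists, not_le] at c2
              exact (min_le_left _ _).trans_lt (c2 i)
            calc _ ≤ (cW J D * ((L ^ 2 + ε0⁻¹) * ∑ i, wt ((e n).x ω i))) / ρ := by
                  gcongr
                  exact this.trans (by gcongr)
              _ = _ := by ring
      _ = cW J D * (L ^ 2 + ε0⁻¹) / ρ * ∫ ω, ∑ i, wt ((e n).x ω i) ∂(e n).P := by
          rw [integral_const_mul]
      _ ≤ cW J D * (L ^ 2 + ε0⁻¹) / ρ * C1 := by
          have hcW := cW_nonneg (J := J) (D := D)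
          gcongr
          exact g1.trans (le_max_left _ _)
      _ ≤ ε / 3 := by
          rw [div_mul_eq_mul_div, div_le_iff₀ hρp, hρ]
          have : ε / 3 * (cW J D * (L ^ 2 + ε0⁻¹) * C1 * (3 / ε) + 1)
            = cW J D * (L ^ 2 + ε0⁻¹) * C1 + ε / 3 := by field_simp
          rw [this]
          linarith
  linarith

lemma modulus (Θ : Matrix (J × D) (J × D) ℝ → ℝ) (hΘ : Continuous Θ) (r : ℝ) {ε : ℝ}
    (hε : 0 < ε) : ∃ δ : ℝ, 0 < δ ∧ δ ≤ 1 ∧ ∀ A A', nrm A ≤ r → nrm (A' - A) ≤ δ →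
      |Θ A' - Θ A| ≤ ε := by
  let Θ' : ((J × D) → (J × D) → ℝ) → ℝ := Θ
  have hΘ' : Continuous Θ' := hΘ
  let s : Set ((J × D) → (J × D) → ℝ) :=
    Set.pi Set.univ fun _ => Set.pi Set.univ fun _ => Set.Icc (-r) r
  have hs : IsCompact s := isCompact_univ_pi fun _ => isCompact_univ_pi fun _ => isCompact_Icc
  have hu := hs.uniformContinuousAt_of_continuousAt Θ' (fun a _ => hΘ'.continuousAt)
    (Metric.dist_mem_uniformity hε)
  obtain ⟨δ, hδ, hd⟩ := Metric.mem_uniformity_dist.1 hu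
  have aux : ∀ A A' : (J × D) → (J × D) → ℝ, (∀ a b, |A a b| ≤ r) →
      (∀ a b, |A' a b - A a b| ≤ δ / 2) → |Θ' A' - Θ' A| ≤ ε := by
    intro A A' hA hAA
    have hmem : A ∈ s := fun a _ b _ => abs_le.1 (hA a b)
    have hdist : dist A A' < δ := by
      refine lt_of_le_of_lt ?_ (half_lt_self hδ)
      rw [dist_pi_le_iff (by positivity)]
      intro a
      rw [dist_pi_le_iff (by positivity)]
      intro b
      rw [Real.dist_eq, abs_sub_comm]
      exact hAA a b
    have h4 : dist (Θ' A) (Θ' A') < ε := hd hdist hmem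
    rw [Real.dist_eq, abs_sub_comm] at h4
    exact h4.le
  refine ⟨min (δ / 2) 1, by positivity, min_le_right _ _, fun A A' hA hAA => ?_⟩
  exact aux A A' (fun a b => (nrm_entry A a b).trans hA)
    (fun a b => (nrm_entry (A' - A) a b).trans (hAA.trans (min_le_left _ _)))

lemma Env.int_tail (e : Env D) (L : ℝ) {B : ℝ} (hB : 1 ≤ B) (ω : e.Ω) :
    ∫ s, nrm (e.mat (J := J) (far (cL L) B) ω s) ∂(e.st J ω) ≤
      cW J D * (L ^ 2 / B) * ∑ i, wt (e.x ω i) := by
  refine (e.int_nrm_mat (J := J) (far (cL L) B) ω).trans ?_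
  rw [mul_assoc]
  have := cW_nonneg (J := J) (D := D)
  gcongr
  rw [Finset.mul_sum]
  refine Finset.sum_le_sum fun i _ => ?_
  unfold far
  split_ifs with h
  · simp only [abs_zero]
    have := wt_nonneg (e.x ω i)
    positivity
  · exact abs_cL_tail hB (not_le.1 h)

/-- the event that some admissible `k`-tuple violates the (approximate) vanishing -/
def Env.Bad (e : Env D) (K0 : Matrix (J × D) (J × D) ℝ)
    (Θ : Matrix (J × D) (J × D) ℝ → ℝ) (k : ℕ) (B C ε : ℝ) : Set e.Ω :=
  {ω | ∃ (σ : Fin k → Bool) (g : Fin k → e.S → D → ℝ), e.Cls ω B C g ∧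
    ε < |∫ s, Θ (K0 + quad (fun r => sg (σ r)) (fun r j => g r (s j))) ∂(e.st J ω)|}

lemma card_le_wt (e : Env D) {B : ℝ} (hB : 1 ≤ B) (ω : e.Ω) {ε0 : ℝ} (hε0 : 0 < ε0)
    (hx : ∀ i, ε0 < |e.x ω i|) :
    ((Finset.univ.filter fun i => |e.x ω i| ≤ B).card : ℝ) ≤ B ^ 2 * ∑ i, wt (e.x ω i) := by
  rw [Finset.card_eq_sum_ones, Nat.cast_sum, Finset.mul_sum, Finset.sum_filter]
  refine Finset.sum_le_sum fun i _ => ?_
  split_ifs with h
  · have h0 : 0 < |e.x ω i| := hε0.trans (hx i)
    unfold wt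
    rw [← sq_abs (e.x ω i)]
    rcases le_total 1 ((|e.x ω i| ^ 2)⁻¹) with h1 | h1
    · rw [min_eq_left h1]
      simp only [Nat.cast_one, mul_one]
      nlinarith
    · rw [min_eq_right h1]
      rw [← div_eq_mul_inv, le_div_iff₀ (by positivity)]
      simp only [Nat.cast_one, one_mul]
      gcongr
  · have := wt_nonneg (e.x ω i)
    positivity

open Classical in
/-- **Core of E1.** -/
theorem core {N : Type*} {l : Filter N} {e : N → Env D} {K0 : Matrix (J × D) (J × D) ℝ}
    (h : Hyp l e K0) (Θ : Matrix (J × D) (J × D) ℝ → ℝ) (hΘ : Continuous Θ) {M : ℝ}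
    (hM : ∀ A, |Θ A| ≤ M)
    (hbad : ∀ (k : ℕ) (B C ε : ℝ), 0 < ε →
      Tendsto (fun n => (e n).P.real ((e n).Bad K0 Θ k B C ε)) l (𝓝 0)) :
    Tendsto (fun n => (e n).E J (fun ω s => Θ ((e n).G ω s))) l (𝓝 0) := by
  have hM0 : 0 ≤ M := (abs_nonneg _).trans (hM 0)
  rw [Metric.tendsto_nhds]
  intro η hη
  -- a small parameter
  obtain ⟨ε, hε, hεη⟩ : ∃ ε : ℝ, 0 < ε ∧ (2 + 9 * M) * ε < η := by
    refine ⟨η / (2 * (2 + 9 * M)), by positivity, ?_⟩
    have : (2 + 9 * M) * (η / (2 * (2 + 9 * M))) = η / 2 := by field_simp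
    rw [this]; linarith
  obtain ⟨r, hr, htight⟩ := h.tight hε
  obtain ⟨δ, hδ, hδ1, hmod⟩ := modulus Θ hΘ r hε
  obtain ⟨C0, hC0⟩ := h.T1
  obtain ⟨ε1, hε1, h2⟩ := h.T2 ε hε
  obtain ⟨L, h4⟩ := h.T4 (ε * δ) (by positivity)
  set C1 := max C0 1 with hC1
  have hC1p : 0 < C1 := lt_max_of_lt_right one_pos
  have hcW := cW_nonneg (J := J) (D := D)
  -- the truncation B
  obtain ⟨B, hB, hBt⟩ : ∃ B : ℝ, 1 ≤ B ∧ cW J D * (L ^ 2 / B) * C1 ≤ ε * δ := by
    refine ⟨max 1 (cW J D * L ^ 2 * C1 / (ε * δ)), le_max_left _ _, ?_⟩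
    have hBp : 0 < max 1 (cW J D * L ^ 2 * C1 / (ε * δ)) := lt_max_of_lt_left one_pos
    rw [show cW J D * (L ^ 2 / max 1 (cW J D * L ^ 2 * C1 / (ε * δ))) * C1
      = (cW J D * L ^ 2 * C1) / max 1 (cW J D * L ^ 2 * C1 / (ε * δ)) by ring,
      div_le_iff₀ hBp]
    calc cW J D * L ^ 2 * C1 = ε * δ * (cW J D * L ^ 2 * C1 / (ε * δ)) := by field_simp
      _ ≤ _ := by gcongr; exact le_max_right _ _
  -- the number of near eigenvalues
  obtain ⟨k, hk⟩ := exists_nat_ge (B ^ 2 * (C1 / ε))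
  set C := Real.sqrt ε1⁻¹ with hC
  have hCsq : C ^ 2 = ε1⁻¹ := Real.sq_sqrt (by positivity)
  have hbk := hbad k B C ε hε
  rw [Metric.tendsto_nhds] at hbk
  filter_upwards [htight, hC0, h2, h4, hbk ε hε] with n g0 g1 g2 g4 g5
  rw [Real.dist_eq, sub_zero] at g5 ⊢
  have g5' : (e n).P.real ((e n).Bad K0 Θ k B C ε) ≤ ε := (le_abs_self _).trans g5.le
  set A2 : Set (e n).Ω := {ω | ∃ i, |(e n).x ω i| ≤ ε1} with hA2
  set A3 : Set (e n).Ω := {ω | C1 / ε < ∑ i, wt ((e n).x ω i)} with hA3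
  set A5 : Set (e n).Ω := (e n).Bad K0 Θ k B C ε with hA5
  have gA3 : (e n).P.real A3 ≤ ε := by
    have h1 := mul_meas_ge_le_integral_of_nonneg (μ := (e n).P)
      (f := fun ω => ∑ i, wt ((e n).x ω i))
      (Eventually.of_forall fun ω => Finset.sum_nonneg fun _ _ => wt_nonneg _)
      Integrable.of_finite (C1 / ε)
    have h3 : (e n).P.real A3 ≤ (e n).P.real {ω | C1 / ε ≤ ∑ i, wt ((e n).x ω i)} :=
      measureReal_mono (fun ω (hω : C1 / ε < _) => hω.le)
    have h6 : C1 / ε * (e n).P.real A3 ≤ C1 :=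
      ((mul_le_mul_of_nonneg_left h3 (by positivity)).trans h1).trans
        (g1.trans (le_max_left _ _))
    rw [div_mul_eq_mul_div, div_le_iff₀ hε] at h6
    exact le_of_mul_le_mul_left h6 hC1p
  -- pointwise bound in ω
  have key : ∀ ω, |∫ s, Θ ((e n).G ω s) ∂((e n).st J ω)| ≤
      2 * ε + M * ((if ω ∈ A2 then 1 else 0) + (if ω ∈ A3 then 1 else 0) +
        (if ω ∈ A5 then 1 else 0)) +
      2 * M * ∫ s, (if r < nrm ((e n).G ω s) then (1 : ℝ) else 0) ∂((e n).st J ω) +
      2 * M / δ * ∫ s, min 1 (nrm ((e n).mat (rL L) ω s - K0)) ∂((e n).st J ω) +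
      2 * M / δ * (cW J D * (L ^ 2 / B) * ∑ i, wt ((e n).x ω i)) := by
    intro ω
    have p1 : 0 ≤ ∫ s, (if r < nrm ((e n).G ω s) then (1 : ℝ) else 0) ∂((e n).st J ω) :=
      integral_nonneg fun s => by positivity
    have p2 : 0 ≤ ∫ s, min 1 (nrm ((e n).mat (rL L) ω s - K0)) ∂((e n).st J ω) :=
      integral_nonneg fun s => le_min zero_le_one (nrm_nonneg _)
    have p3 : 0 ≤ ∑ i, wt ((e n).x ω i) := Finset.sum_nonneg fun _ _ => wt_nonneg _
    have p4 : |∫ s, Θ ((e n).G ω s) ∂((e n).st J ω)| ≤ M := by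
      calc |∫ s, Θ ((e n).G ω s) ∂((e n).st J ω)|
          ≤ ∫ s, |Θ ((e n).G ω s)| ∂((e n).st J ω) := abs_integral_le_integral_abs
        _ ≤ ∫ s, M ∂((e n).st J ω) :=
            integral_mono Integrable.of_finite Integrable.of_finite fun s => hM _
        _ = M := by simp
    have q2 : 0 ≤ 2 * M * ∫ s, (if r < nrm ((e n).G ω s) then (1 : ℝ) else 0)
      ∂((e n).st J ω) := by positivity
    have q3 : 0 ≤ 2 * M / δ * ∫ s, min 1 (nrm ((e n).mat (rL L) ω s - K0)) ∂((e n).st J ω) := by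
      positivity
    have q4 : 0 ≤ 2 * M / δ * (cW J D * (L ^ 2 / B) * ∑ i, wt ((e n).x ω i)) := by
      positivity
    by_cases c2 : ω ∈ A2
    · simp only [c2, if_true]
      split_ifs <;> linarith
    by_cases c3 : ω ∈ A3
    · simp only [c3, if_true]
      split_ifs <;> linarith
    by_cases c5 : ω ∈ A5
    · simp only [c5, if_true]
      split_ifs <;> linarith
    simp only [c2, c3, c5, if_false, add_zero, mul_zero]
    have hx : ∀ i, ε1 < |(e n).x ω i| := by
      simpa only [hA2, Set.mem_ofPred_eq, not_exists, not_le] using c2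
    have hcard : (Finset.univ.filter fun i => |(e n).x ω i| ≤ B).card ≤ k := by
      have h1 := card_le_wt (e n) hB ω hε1 hx
      have h3 : ∑ i, wt ((e n).x ω i) ≤ C1 / ε := by
        simpa only [hA3, Set.mem_ofPred_eq, not_lt] using c3
      have : ((Finset.univ.filter fun i => |(e n).x ω i| ≤ B).card : ℝ) ≤ k :=
        h1.trans ((by gcongr : B ^ 2 * ∑ i, wt ((e n).x ω i) ≤ B ^ 2 * (C1 / ε)).trans hk)
      exact_mod_cast this
    have hc : ∀ i, |cL L ((e n).x ω i)| ≤ C ^ 2 := by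
      intro i
      rw [hCsq]
      refine (abs_cL_le_inv _ _).trans ?_
      have := hx i
      gcongr
    obtain ⟨σ, g, hg, hdec⟩ := (e n).near (J := J) (cL L) ω (Real.sqrt_nonneg _) hc hcard
    have hgood : |∫ s, Θ (K0 + quad (fun r => sg (σ r)) (fun r j => g r (s j)))
        ∂((e n).st J ω)| ≤ ε := by
      by_contra hcon
      exact c5 ⟨σ, g, hg, not_le.1 hcon⟩
    have hpt : ∀ s : J → (e n).S, |Θ ((e n).G ω s) -
        Θ (K0 + quad (fun r => sg (σ r)) (fun r j => g r (s j)))| ≤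
        ε + 2 * M * (if r < nrm ((e n).G ω s) then (1 : ℝ) else 0) +
        2 * M / δ * (min 1 (nrm ((e n).mat (rL L) ω s - K0)) +
          nrm ((e n).mat (far (cL L) B) ω s)) := by
      intro s
      set A := (e n).G ω s with hA
      set A' := K0 + quad (fun r => sg (σ r)) (fun r j => g r (s j)) with hA'
      have n1 := nrm_nonneg ((e n).mat (J := J) (rL L) ω s - K0)
      have n2 := nrm_nonneg ((e n).mat (J := J) (far (cL L) B) ω s)
      have n3 : 0 ≤ min 1 (nrm ((e n).mat (J := J) (rL L) ω s - K0)) := le_min zero_le_one n1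
      have t0 : |Θ A - Θ A'| ≤ 2 * M := by
        have := abs_sub (Θ A) (Θ A')
        have h1 := hM A
        have h3 := hM A'
        linarith
      have t1 : A' - A = -(((e n).mat (rL L) ω s - K0) + (e n).mat (far (cL L) B) ω s) := by
        rw [hA, hA', (e n).G_split L, hdec s]
        abel
      have t2 : nrm (A' - A) ≤ nrm ((e n).mat (rL L) ω s - K0) +
          nrm ((e n).mat (J := J) (far (cL L) B) ω s) := by
        rw [t1]
        have : ∀ X : Matrix (J × D) (J × D) ℝ, nrm (-X) = nrm X := fun X => by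
          unfold nrm; simp
        rw [this]
        exact nrm_add _ _
      by_cases c6 : r < nrm A
      · simp only [c6, if_true]
        have : 0 ≤ 2 * M / δ * (min 1 (nrm ((e n).mat (J := J) (rL L) ω s - K0)) +
          nrm ((e n).mat (J := J) (far (cL L) B) ω s)) := by positivity
        linarith
      · simp only [c6, if_false, mul_zero, add_zero]
        by_cases c7 : nrm (A' - A) ≤ δ
        · have := hmod A A' (not_lt.1 c6) c7
          rw [abs_sub_comm] at this
          have : 0 ≤ 2 * M / δ * (min 1 (nrm ((e n).mat (J := J) (rL L) ω s - K0)) +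
            nrm ((e n).mat (J := J) (far (cL L) B) ω s)) := by positivity
          linarith
        · have c8 : δ ≤ min 1 (nrm ((e n).mat (J := J) (rL L) ω s - K0)) +
              nrm ((e n).mat (J := J) (far (cL L) B) ω s) := by
            rcases le_total 1 (nrm ((e n).mat (J := J) (rL L) ω s - K0)) with c9 | c9
            · rw [min_eq_left c9]; linarith
            · rw [min_eq_right c9]
              push Not at c7
              linarith
          have : 2 * M ≤ 2 * M / δ * (min 1 (nrm ((e n).mat (J := J) (rL L) ω s - K0)) +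
              nrm ((e n).mat (J := J) (far (cL L) B) ω s)) := by
            rw [div_mul_eq_mul_div, le_div_iff₀ hδ]
            gcongr
          linarith
    have hint : ∫ s, |Θ ((e n).G ω s) -
        Θ (K0 + quad (fun r => sg (σ r)) (fun r j => g r (s j)))| ∂((e n).st J ω) ≤
        ε + 2 * M * ∫ s, (if r < nrm ((e n).G ω s) then (1 : ℝ) else 0) ∂((e n).st J ω) +
        2 * M / δ * (∫ s, min 1 (nrm ((e n).mat (rL L) ω s - K0)) ∂((e n).st J ω) +
          ∫ s, nrm ((e n).mat (far (cL L) B) ω s) ∂((e n).st J ω)) := by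
      refine (integral_mono Integrable.of_finite Integrable.of_finite hpt).trans ?_
      rw [integral_add Integrable.of_finite Integrable.of_finite,
        integral_add Integrable.of_finite Integrable.of_finite, integral_const_mul,
        integral_const_mul, integral_add Integrable.of_finite Integrable.of_finite]
      simp
    have htail := (e n).int_tail (J := J) L hB ω
    have hfin : |∫ s, Θ ((e n).G ω s) ∂((e n).st J ω)| ≤
        |∫ s, Θ (K0 + quad (fun r => sg (σ r)) (fun r j => g r (s j))) ∂((e n).st J ω)| +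
        ∫ s, |Θ ((e n).G ω s) -
        Θ (K0 + quad (fun r => sg (σ r)) (fun r j => g r (s j)))| ∂((e n).st J ω) := by
      have h1 : ∫ s, Θ ((e n).G ω s) ∂((e n).st J ω) =
          ∫ s, Θ (K0 + quad (fun r => sg (σ r)) (fun r j => g r (s j))) ∂((e n).st J ω) +
          ∫ s, (Θ ((e n).G ω s) -
            Θ (K0 + quad (fun r => sg (σ r)) (fun r j => g r (s j)))) ∂((e n).st J ω) := by
        rw [← integral_add Integrable.of_finite Integrable.of_finite]
        refine integral_congr_ae (Eventually.of_forall fun s => ?_)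
        simp
      rw [h1]
      refine (abs_add_le _ _).trans ?_
      gcongr
      exact abs_integral_le_integral_abs
    have hmul : 2 * M / δ * ∫ s, nrm ((e n).mat (far (cL L) B) ω s) ∂((e n).st J ω) ≤
        2 * M / δ * (cW J D * (L ^ 2 / B) * ∑ i, wt ((e n).x ω i)) := by
      gcongr
    rw [mul_add] at hint
    linarith
  have hE : |(e n).E J (fun ω s => Θ ((e n).G ω s))| ≤
      ∫ ω, |∫ s, Θ ((e n).G ω s) ∂((e n).st J ω)| ∂(e n).P := by
    unfold Env.E
    exact abs_integral_le_integral_abs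
  have hI : ∀ (A : Set (e n).Ω) (_ : DecidablePred (· ∈ A)),
      ∫ ω, (if ω ∈ A then (1 : ℝ) else 0) ∂(e n).P = (e n).P.real A := by
    intro A _
    have := (e n).E_set (J := J) A
    rwa [(e n).E_graph] at this
  have hsum := integral_mono (μ := (e n).P) Integrable.of_finite Integrable.of_finite key
  rw [integral_add Integrable.of_finite Integrable.of_finite,
    integral_add Integrable.of_finite Integrable.of_finite,
    integral_add Integrable.of_finite Integrable.of_finite,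
    integral_add Integrable.of_finite Integrable.of_finite, integral_const_mul,
    integral_const_mul,
    integral_add Integrable.of_finite Integrable.of_finite,
    integral_add Integrable.of_finite Integrable.of_finite, hI, hI, hI,
    integral_const_mul, integral_const_mul, integral_const_mul, integral_const_mul] at hsum
  simp only [integral_const, probReal_univ, smul_eq_mul, one_mul] at hsum
  have e0 : ∫ ω, ∫ s, (if r < nrm ((e n).G ω s) then (1 : ℝ) else 0) ∂((e n).st J ω) ∂(e n).P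
    ≤ ε := g0
  have e4 : ∫ ω, ∫ s, min 1 (nrm ((e n).mat (rL L) ω s - K0)) ∂((e n).st J ω) ∂(e n).P
    ≤ ε * δ := g4
  have e5 : cW J D * (L ^ 2 / B) * ∫ ω, ∑ i, wt ((e n).x ω i) ∂(e n).P ≤ ε * δ := by
    refine le_trans ?_ hBt
    gcongr
    exact g1.trans (le_max_left _ _)
  have f0 : 2 * M * ∫ ω, ∫ s, (if r < nrm ((e n).G ω s) then (1 : ℝ) else 0) ∂((e n).st J ω)
    ∂(e n).P ≤ 2 * M * ε := by gcongr
  have f4 : 2 * M / δ * ∫ ω, ∫ s, min 1 (nrm ((e n).mat (rL L) ω s - K0)) ∂((e n).st J ω)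
      ∂(e n).P ≤ 2 * M * ε := by
    calc _ ≤ 2 * M / δ * (ε * δ) := by gcongr
      _ = _ := by field_simp
  have f5 : 2 * M / δ * (cW J D * (L ^ 2 / B) * ∫ ω, ∑ i, wt ((e n).x ω i) ∂(e n).P) ≤
      2 * M * ε := by
    calc _ ≤ 2 * M / δ * (ε * δ) := by gcongr
      _ = _ := by field_simp
  have f6 : M * ((e n).P.real A2 + (e n).P.real A3 + (e n).P.real A5) ≤ M * (ε + ε + ε) := by
    gcongr
  linarith

end Vale.Agent.P156.H12
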