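import Vale.Agent.P156.H12.E1
import Vale.Agent.P156.H490.Spectral
import Vale.Agent.P156.H490.Prob

/-!
# P156, block E: the environment of the random regular graph
-/

set_option linter.unusedSectionVars false

namespace Vale.Agent.P156.H12

open MeasureTheory Filter Matrix H490
open scoped Topology BigOperators ENNReal

section unif

variable {α : Type*} [MeasurableSpace α]

/-- uniform law on a finset -/
noncomputable def unif (s : Finset α) : Measure α :=
  (s.card : ℝ≥0∞)⁻¹ • ∑ a ∈ s, Measure.dirac a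

lemma integral_unif [MeasurableSingletonClass α] (s : Finset α) (f : α → ℝ) :
    ∫ x, f x ∂(unif s) = avg s f := by
  unfold unif avg
  rw [integral_smul_measure, integral_finsetSum_measure]
  · simp only [integral_dirac]
    rw [ENNReal.toReal_inv, ENNReal.toReal_natCast, smul_eq_mul, div_eq_inv_mul]
  · intro a _
    exact (integrable_dirac (by simp))

lemma isProb_unif {s : Finset α} (hs : s.Nonempty) : IsProbabilityMeasure (unif s) := by
  constructor
  unfold unif
  simp only [Measure.smul_apply, Measure.finsetSum_apply, measure_univ, Finset.sum_const,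
    nsmul_eq_mul, mul_one, smul_eq_mul]
  exact ENNReal.inv_mul_cancel (by simpa using hs.ne_empty) (by simp)

open Classical in
lemma unif_singleton [MeasurableSingletonClass α] (s : Finset α) (a : α) :
    unif s {a} = if a ∈ s then (s.card : ℝ≥0∞)⁻¹ else 0 := by
  unfold unif
  simp only [Measure.smul_apply, Measure.finsetSum_apply, smul_eq_mul]
  have : ∀ x ∈ s, (Measure.dirac x) {a} = if x = a then (1 : ℝ≥0∞) else 0 := by
    intro x _
    rw [Measure.dirac_apply' _ (measurableSet_singleton a)]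
    simp [Set.indicator_apply]
  rw [Finset.sum_congr rfl this]
  simp

lemma pi_unif [MeasurableSingletonClass α] [Finite α] {J : Type*} [Fintype J] [DecidableEq J]
    {s : Finset α} (hs : s.Nonempty) :
    Measure.pi (fun _ : J => unif s) = unif (Fintype.piFinset fun _ : J => s) := by
  classical
  have := isProb_unif (α := α) hs
  refine Measure.ext_of_singleton fun x => ?_
  rw [Measure.pi_singleton, unif_singleton]
  simp only [unif_singleton, Fintype.mem_piFinset, Fintype.card_piFinset, Finset.prod_const]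
  split_ifs with h
  · rw [Finset.prod_congr rfl fun j _ => if_pos (h j)]
    simp [ENNReal.inv_pow]
  · push Not at h
    obtain ⟨j, hj⟩ := h
    exact Finset.prod_eq_zero (Finset.mem_univ j) (if_neg hj)

end unif

/-- admissible indices: at least one regular graph, at least one vertex -/
def Idx (d : ℕ) : Type := {n : ℕ // 0 < n ∧ (regularGraphs n d).Nonempty}

lemma starsOf_nonempty {n d : ℕ} (hn : 0 < n) {G : SimpleGraph (Fin n)}
    (hG : G ∈ regularGraphs n d) : (starsOf d G).Nonempty := by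
  rw [← Finset.card_pos, card_starsOf hG]
  positivity

instance instMSGraph (n : ℕ) : MeasurableSpace (SimpleGraph (Fin n)) := ⊤

open Classical in
/-- law of one star -/
noncomputable def starLaw {n : ℕ} (d : ℕ) (hn : 0 < n) (G : SimpleGraph (Fin n)) :
    Measure (Fin n × (Fin d → Fin n)) :=
  if G ∈ regularGraphs n d then unif (starsOf d G)
    else Measure.dirac (⟨0, hn⟩, fun _ => ⟨0, hn⟩)

instance {n d : ℕ} (hn : 0 < n) (G : SimpleGraph (Fin n)) :
    IsProbabilityMeasure (starLaw d hn G) := by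
  unfold starLaw
  split_ifs with h
  · exact isProb_unif (starsOf_nonempty hn h)
  · infer_instance

open Classical in
/-- The environment of the uniform `d`-regular graph on `n` vertices at energy `E`. -/
noncomputable def gEnv (d : ℕ) (E : ℕ → ℝ) (n : Idx d) : Env (Option (Fin d)) where
  Ω := SimpleGraph (Fin n.1)
  S := Fin n.1 × (Fin d → Fin n.1)
  ι := Fin n.1
  mΩ := instMSGraph n.1
  fΩ := inferInstance
  dΩ := inferInstance
  mS := inferInstance
  fS := inferInstance
  dS := inferInstance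
  P := unif (regularGraphs n.1 d)
  hP := isProb_unif n.2.2
  κ := starLaw d n.2.1
  hκ := inferInstance
  x := fun G i => xx (E n.1) G i
  F := fun G i s a => if G ∈ regularGraphs n.1 d then phi G i (vtx s a) else 0
  hF := by
    intro G i a
    by_cases hG : G ∈ regularGraphs n.1 d
    · simp only [hG, if_true, starLaw]
      rw [integral_unif, avg_phi_sq hG n.2.1]
    · simp [hG]

lemma gEnv_P (d : ℕ) (E : ℕ → ℝ) (n : Idx d) : (gEnv d E n).P = unif (regularGraphs n.1 d) := rfl

lemma integral_gEnv (d : ℕ) (E : ℕ → ℝ) (n : Idx d) (f : (gEnv d E n).Ω → ℝ) :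
    ∫ ω, f ω ∂(gEnv d E n).P = avg (regularGraphs n.1 d) f :=
  integral_unif (regularGraphs n.1 d) f

lemma gEnv_E (d K : ℕ) (E : ℕ → ℝ) (n : Idx d)
    (Z : (gEnv d E n).Ω → (Fin K → (gEnv d E n).S) → ℝ) :
    (gEnv d E n).E (Fin K) Z =
      avg (WW n.1 d K) (fun ω => Z ω.1 (fun j => (ω.2.1 j, ω.2.2 j))) := by
  classical
  rw [avg_WW]
  unfold Env.E
  rw [integral_gEnv]
  refine avg_congr fun G hG => ?_
  have h1 : (gEnv d E n).st (Fin K) G =
      unif (α := Fin K → Fin n.1 × (Fin d → Fin n.1))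
        (Fintype.piFinset fun _ : Fin K => starsOf d G) := by
    show (Measure.pi fun _ : Fin K => starLaw d n.2.1 G) = _
    have : starLaw d n.2.1 G = unif (starsOf d G) := by
      unfold starLaw
      rw [if_pos hG]
    rw [this]
    exact pi_unif (J := Fin K) (starsOf_nonempty n.2.1 hG)
  rw [h1]
  exact integral_unif (Fintype.piFinset fun _ : Fin K => starsOf d G) _

lemma gEnv_real (d : ℕ) (E : ℕ → ℝ) (n : Idx d) (A : Set (gEnv d E n).Ω) :
    (gEnv d E n).P.real A = prob (regularGraphs n.1 d) (fun G => G ∈ A) := by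
  classical
  have h := integral_gEnv d E n (fun ω => if ω ∈ A then (1 : ℝ) else 0)
  have h2 : (fun ω => if ω ∈ A then (1 : ℝ) else 0) = A.indicator (fun _ => (1 : ℝ)) := by
    ext ω; simp [Set.indicator_apply]
  rw [h2, integral_indicator (MeasurableSet.of_discrete)] at h
  simp only [integral_const, MeasurableSet.univ, measureReal_restrict_apply, Set.univ_inter,
    smul_eq_mul, mul_one] at h
  rw [h, ← h2]
  rfl

/-- the star tuple of `ω` -/
def tup {n d K : ℕ} (ω : SimpleGraph (Fin n) × StarPos n d K) :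
    Fin K → Fin n × (Fin d → Fin n) := fun j => (ω.2.1 j, ω.2.2 j)

lemma mat_gEnv (d K : ℕ) (E : ℕ → ℝ) (n : Idx d) (c : ℝ → ℝ)
    {ω : SimpleGraph (Fin n.1) × StarPos n.1 d K} (hω : ω ∈ WW n.1 d K)
    (a b : Fin K × Option (Fin d)) :
    (gEnv d E n).mat (J := Fin K) c ω.1 (tup ω) a b =
      ∑ i, c (xx (E n.1) ω.1 i) * (phi ω.1 i (pos ω a) * phi ω.1 i (pos ω b)) := by
  classical
  have hG : ω.1 ∈ regularGraphs n.1 d := by
    unfold WW at hω
    exact (Finset.mem_filter.1 hω).2.1
  unfold Env.mat quad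
  refine Finset.sum_congr rfl fun i _ => ?_
  show c (xx (E n.1) ω.1 i) * ((if ω.1 ∈ regularGraphs n.1 d then phi ω.1 i (vtx (tup ω a.1) a.2)
    else 0) * (if ω.1 ∈ regularGraphs n.1 d then phi ω.1 i (vtx (tup ω b.1) b.2) else 0)) = _
  rw [if_pos hG, if_pos hG]
  rfl

lemma continuousAt_mdE {d : ℕ} (hd : 3 ≤ d) {E₀ : ℝ}
    (hE : |E₀| < 2 * Real.sqrt ((d : ℝ) - 1)) : ContinuousAt (mdE d) E₀ := by
  have hc : Continuous (mE d) := by
    unfold mE
    fun_prop
  have hne : ((E₀ : ℂ) + d * mE d E₀) ≠ 0 := by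
    have hd1 : (3 : ℝ) ≤ d := by exact_mod_cast hd
    have hs : 0 < Real.sqrt (4 * ((d : ℝ) - 1) - E₀ ^ 2) := by
      apply Real.sqrt_pos.2
      have h1 : Real.sqrt ((d : ℝ) - 1) ^ 2 = (d : ℝ) - 1 := Real.sq_sqrt (by linarith)
      have h2 : E₀ ^ 2 < (2 * Real.sqrt ((d : ℝ) - 1)) ^ 2 := by
        rw [← sq_abs]
        gcongr
      nlinarith
    have h3 : (mE d E₀).im = Real.sqrt (4 * ((d : ℝ) - 1) - E₀ ^ 2) / (2 * ((d : ℝ) - 1)) := by
      have h4 : mE d E₀ = ((-E₀ / (2 * ((d : ℝ) - 1)) : ℝ) : ℂ) +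
          ((Real.sqrt (4 * ((d : ℝ) - 1) - E₀ ^ 2) / (2 * ((d : ℝ) - 1)) : ℝ) : ℂ) *
            Complex.I := by
        unfold mE
        push_cast
        ring
      rw [h4]
      simp only [Complex.add_im, Complex.ofReal_im, Complex.mul_im, Complex.ofReal_re,
        Complex.I_im, Complex.I_re, mul_one, mul_zero, add_zero, zero_add]
    intro h
    have h5 := congrArg Complex.im h
    rw [Complex.add_im, Complex.ofReal_im, zero_add, Complex.mul_im, Complex.natCast_re,
      Complex.natCast_im, zero_mul, add_zero, h3] at h5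
    have h6 : 0 < (d : ℝ) * (Real.sqrt (4 * ((d : ℝ) - 1) - E₀ ^ 2) / (2 * ((d : ℝ) - 1))) := by
      have : 0 < (d : ℝ) - 1 := by linarith
      positivity
    rw [h5] at h6
    simp at h6
  unfold mdE
  refine ContinuousAt.div continuousAt_const ?_ hne
  exact (Complex.continuous_ofReal.continuousAt).add
    (continuousAt_const.mul hc.continuousAt)

/-- real part of the tree resolvent -/
noncomputable def K0 (d : ℕ) (E₀ : ℝ) (K : ℕ) :
    Matrix (Fin K × Option (Fin d)) (Fin K × Option (Fin d)) ℝ :=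
  fun a b => (KE d E₀ K a b).re

lemma continuousAt_KE {d : ℕ} (hd : 3 ≤ d) {E₀ : ℝ}
    (hE : |E₀| < 2 * Real.sqrt ((d : ℝ) - 1)) (K : ℕ) (a b : Fin K × Option (Fin d)) :
    ContinuousAt (fun E => KE d E K a b) E₀ := by
  have hc : Continuous (mE d) := by
    unfold mE
    fun_prop
  unfold KE
  split_ifs
  · exact (continuousAt_mdE hd hE).mul ((hc.continuousAt.neg).pow _)
  · exact continuousAt_const

/-- the filter on the admissible indices -/
def lU (d : ℕ) (𝒰 : Ultrafilter ℕ) : Filter (Idx d) :=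
  Filter.comap (fun n : Idx d => n.1) (𝒰 : Filter ℕ)

lemma ev_lU {d : ℕ} {𝒰 : Ultrafilter ℕ} {p : ℕ → Prop} (h : ∀ᶠ n in (𝒰 : Filter ℕ), p n) :
    ∀ᶠ n in lU d 𝒰, p n.1 := h.comap _

lemma mem_reg_of_WW {n d K : ℕ} {ω : SimpleGraph (Fin n) × StarPos n d K}
    (hω : ω ∈ WW n d K) : ω.1 ∈ regularGraphs n d := by
  classical
  unfold WW at hω
  exact (Finset.mem_filter.1 hω).2.1

theorem hyp_of_good {d : ℕ} {𝒰 : Ultrafilter ℕ} {E : ℕ → ℝ} {E₀ : ℝ} (h : GoodSeq d 𝒰 E E₀)
    (K : ℕ) : Hyp (J := Fin K) (lU d 𝒰) (gEnv d E) (K0 d E₀ K) := by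
  classical
  refine ⟨?_, ?_, ?_⟩
  · obtain ⟨B, hB⟩ := h.T1 1 one_pos
    obtain ⟨C, hC⟩ := h.T1' B
    refine ⟨C + 1, ?_⟩
    filter_upwards [ev_lU hB, ev_lU hC] with n h1 h2
    rw [integral_gEnv]
    refine le_trans ?_ (add_le_add h2 h1)
    rw [← avg_add]
    refine avg_mono fun G _ => ?_
    rw [← Finset.sum_add_distrib]
    refine Finset.sum_le_sum fun i _ => ?_
    show wt (xx (E n.1) G i) ≤ _
    unfold wt
    by_cases hx : |xx (E n.1) G i| ≤ B
    · rw [if_pos hx, if_neg (not_lt.2 hx), add_zero]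
      exact min_le_left _ _
    · rw [if_neg hx, if_pos (not_le.1 hx), zero_add]
      exact min_le_right _ _
  · intro ε hε
    obtain ⟨δ, hδ, h2⟩ := h.T2 ε hε
    refine ⟨δ, hδ, ?_⟩
    filter_upwards [ev_lU h2] with n h3
    rw [gEnv_real]
    exact h3
  · intro ε hε
    set W : ℝ := (Fintype.card (Fin K × Option (Fin d)) : ℝ) ^ 2 with hW
    have hW0 : 0 ≤ W := by positivity
    set ε' : ℝ := ε / (2 * W + 1) with hε'
    have hε'p : 0 < ε' := by positivity
    obtain ⟨L₀, hL₀⟩ := h.T4 K ε' hε'p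
    obtain ⟨L, hL, h4⟩ := hL₀ (max L₀ 1) (le_max_left _ _)
    have hLp : 0 < L := lt_of_lt_of_le (lt_of_lt_of_le one_pos (le_max_right L₀ 1)) hL
    refine ⟨L, ?_⟩
    have hKE : ∀ᶠ n in (𝒰 : Filter ℕ), ∀ a b, ‖KE d (E n) K a b - KE d E₀ K a b‖ < ε' := by
      rw [eventually_all]
      intro a
      rw [eventually_all]
      intro b
      have h5 := (continuousAt_KE h.three h.bulk K a b).tendsto.comp h.lim
      have h6 := (Metric.tendsto_nhds.1 h5) ε' hε'p
      filter_upwards [h6] with n h7
      rwa [dist_eq_norm] at h7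
    filter_upwards [ev_lU h4, ev_lU hKE] with n h5 h6
    rw [gEnv_E]
    set P : SimpleGraph (Fin n.1) × StarPos n.1 d K → Prop := fun ω => ∃ a b,
      ε' < ‖starMat ω ((E n.1 : ℂ) + ((L / n.1 : ℝ) : ℂ) * Complex.I) a b -
        KE d (E n.1) K a b‖ with hP
    have h7 : ∀ ω ∈ WW n.1 d K,
        min 1 (nrm ((gEnv d E n).mat (J := Fin K) (rL L) ω.1 (tup ω) - K0 d E₀ K)) ≤
        2 * ε' * W + (if P ω then 1 else 0) := by
      intro ω hω
      by_cases hPω : P ω
      · rw [if_pos hPω]
        have := min_le_left 1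
          (nrm ((gEnv d E n).mat (J := Fin K) (rL L) ω.1 (tup ω) - K0 d E₀ K))
        have : 0 ≤ 2 * ε' * W := by positivity
        linarith
      · rw [if_neg hPω, add_zero]
        refine (min_le_right _ _).trans ?_
        have h8 : ∀ a b, |((gEnv d E n).mat (J := Fin K) (rL L) ω.1 (tup ω) - K0 d E₀ K) a b| ≤
            2 * ε' := by
          intro a b
          rw [Matrix.sub_apply, mat_gEnv d K E n (rL L) hω]
          have h9 : ∑ i, rL L (xx (E n.1) ω.1 i) * (phi ω.1 i (pos ω a) * phi ω.1 i (pos ω b)) =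
              (starMat ω ((E n.1 : ℂ) + ((L / n.1 : ℝ) : ℂ) * Complex.I) a b).re := by
            rw [re_starMat ω (E n.1) hLp a b]
            refine Finset.sum_congr rfl fun i _ => ?_
            unfold rL
            ring
          rw [h9]
          unfold K0
          rw [← Complex.sub_re]
          refine (Complex.abs_re_le_norm _).trans ?_
          have h10 : ‖starMat ω ((E n.1 : ℂ) + ((L / n.1 : ℝ) : ℂ) * Complex.I) a b -
              KE d (E n.1) K a b‖ ≤ ε' := by
            by_contra hcon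
            exact hPω ⟨a, b, not_le.1 hcon⟩
          calc _ = ‖(starMat ω ((E n.1 : ℂ) + ((L / n.1 : ℝ) : ℂ) * Complex.I) a b -
              KE d (E n.1) K a b) + (KE d (E n.1) K a b - KE d E₀ K a b)‖ := by
                congr 1; ring
            _ ≤ _ := norm_add_le _ _
            _ ≤ 2 * ε' := by linarith [(h6 a b).le]
        unfold nrm
        calc _ ≤ ∑ _a : Fin K × Option (Fin d), ∑ _b : Fin K × Option (Fin d), 2 * ε' :=
              Finset.sum_le_sum fun a _ => Finset.sum_le_sum fun b _ => h8 a b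
          _ = 2 * ε' * W := by
              simp only [Finset.sum_const, Finset.card_univ, nsmul_eq_mul, hW]
              ring
    refine (avg_mono h7).trans ?_
    rw [avg_add]
    have h8 : avg (WW n.1 d K) (fun ω => if P ω then 1 else 0) ≤ ε' := by
      have h11 : prob (WW n.1 d K) P ≤ ε' := h5
      unfold prob at h11
      convert h11
    have h9 := avg_const_le (WW n.1 d K) (by positivity : 0 ≤ 2 * ε' * W)
    have h10 : 2 * ε' * W + ε' = ε := by
      rw [hε']; field_simp
    linarith

end Vale.Agent.P156.H12
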