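import Vale.Agent.P156.H12.Bridge

/-!
# P156, block E: output of E1 for the random regular graph
-/

set_option linter.unusedSectionVars false

namespace Vale.Agent.P156.H12

open MeasureTheory Filter Matrix H490
open scoped Topology BigOperators ENNReal NNReal BoundedContinuousFunction

/-- real part of `G(E)` on the stars -/
noncomputable def Gre {n d K : ℕ} (E : ℝ) (ω : SimpleGraph (Fin n) × StarPos n d K) :
    Matrix (Fin K × Option (Fin d)) (Fin K × Option (Fin d)) ℝ :=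
  (starMat ω (E : ℂ)).map Complex.re

lemma G_gEnv (d K : ℕ) (E : ℕ → ℝ) (n : Idx d)
    {ω : SimpleGraph (Fin n.1) × StarPos n.1 d K} (hω : ω ∈ WW n.1 d K)
    (hE : NonEig ω.1 (E n.1)) :
    (gEnv d E n).G (J := Fin K) ω.1 (tup ω) = Gre (E n.1) ω := by
  ext a b
  unfold Env.G Gre
  rw [mat_gEnv d K E n _ hω, Matrix.map_apply, starMat_real hE a b, Complex.ofReal_re]
  refine Finset.sum_congr rfl fun i _ => ?_
  rw [div_eq_inv_mul]

/-- transfer of a limit from the admissible indices -/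
lemma transfer {d : ℕ} {𝒰 : Ultrafilter ℕ} {E₀ : ℝ} {E : ℕ → ℝ} (h : GoodSeq d 𝒰 E E₀)
    (F : ℕ → ℝ) (hF : Tendsto (fun n : Idx d => F n.1) (lU d 𝒰) (𝓝 0))
    (h0 : ∀ n, ¬ (regularGraphs n d).Nonempty → F n = 0) : Tendsto F 𝒰 (𝓝 0) := by
  by_cases hne : {n : ℕ | 0 < n ∧ (regularGraphs n d).Nonempty} ∈ (𝒰 : Filter ℕ)
  · have hr : Set.range (fun n : Idx d => n.1) ∈ (𝒰 : Filter ℕ) := by
      refine mem_of_superset hne ?_
      intro n hn
      exact ⟨⟨n, hn⟩, rfl⟩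
    exact (tendsto_comap'_iff hr).1 hF
  · have h1 : {n : ℕ | 0 < n ∧ (regularGraphs n d).Nonempty}ᶜ ∈ (𝒰 : Filter ℕ) :=
      Ultrafilter.compl_mem_iff_notMem.2 hne
    have h2 : ∀ᶠ n in (𝒰 : Filter ℕ), 0 < n := h.atTop (eventually_gt_atTop 0)
    refine Tendsto.congr' ?_ (tendsto_const_nhds (x := (0 : ℝ)))
    filter_upwards [h1, h2] with n h3 h4
    refine (h0 n ?_).symm
    intro h5
    exact h3 ⟨h4, h5⟩

lemma WW_empty {n d K : ℕ} (h : ¬ (regularGraphs n d).Nonempty) : WW n d K = ∅ := by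
  rw [Finset.eq_empty_iff_forall_notMem]
  intro ω hω
  exact h ⟨ω.1, mem_reg_of_WW hω⟩

/-- **Output of E1.** -/
theorem E1out {d : ℕ} (hII : SpecTII d) {𝒰 : Ultrafilter ℕ} {E : ℕ → ℝ} {E₀ : ℝ}
    (h : GoodSeq d 𝒰 E E₀) (K : ℕ) (O : Matrix (Fin K) (Fin K) ℝ) (hO : Oᵀ * O = 1)
    (Φ : Matrix (Fin K × Option (Fin d)) (Fin K × Option (Fin d)) ℝ → ℝ) (hΦ : Continuous Φ)
    (M : ℝ) (hM : ∀ A, |Φ A| ≤ M) :
    Tendsto (fun n => avg (WW n d K) (fun ω => Φ (Gre (E n) ω)) -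
      avg (WW n d K) (fun ω => Φ (tens _ O * Gre (E n) ω * (tens _ O)ᵀ))) 𝒰 (𝓝 0) := by
  classical
  set Θ : Matrix (Fin K × Option (Fin d)) (Fin K × Option (Fin d)) ℝ → ℝ :=
    fun A => Φ A - Φ (tens _ O * A * (tens _ O)ᵀ) with hΘ
  have hΘc : Continuous Θ := by
    rw [hΘ]; fun_prop
  have hΘb : ∀ A, |Θ A| ≤ M + M := fun A => (abs_sub _ _).trans (add_le_add (hM _) (hM _))
  refine transfer h _ ?_ ?_
  · have hcore := core (hyp_of_good h K) Θ hΘc hΘb (by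
      intro k B C ε hε
      have h1 : Tendsto (fun n : Idx d => ∑ σ : Fin k → Bool, (gEnv d E n).P.real
          {ω | ∃ g : Fin k → (gEnv d E n).S →
          Option (Fin d) → ℝ, (gEnv d E n).Cls ω B C g ∧
          ε < |∫ s, (Φ (K0 d E₀ K + quad (fun r => sg (σ r)) (fun r j => g r (s j))) -
          Φ (tens _ O * (K0 d E₀ K + quad (fun r => sg (σ r)) (fun r j => g r (s j))) *
          (tens _ O)ᵀ)) ∂((gEnv d E n).st (Fin K) ω)|}) (lU d 𝒰) (𝓝 0) := by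
        have := tendsto_finsetSum (s := (Finset.univ : Finset (Fin k → Bool)))
          (fun σ _ => bad_sigma hII h K k B C hε σ O hO Φ hΦ M hM)
        simpa using this
      refine squeeze_zero (fun _ => measureReal_nonneg) (fun n => ?_) h1
      refine le_trans (measureReal_mono ?_) (measureReal_iUnion_fintype_le _)
      rintro ω ⟨σ, g, hg1, hg2⟩
      rw [Set.mem_iUnion]
      exact ⟨σ, g, hg1, hg2⟩)
    refine Tendsto.congr' ?_ hcore
    have hns : ∀ᶠ n : Idx d in lU d 𝒰, ∀ G ∈ regularGraphs n.1 d, ∀ D : Finset (Fin n.1),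
        IsUnit (cutMat (adj G) D (E n.1 : ℂ)).det := ev_lU h.nonsing
    filter_upwards [hns] with n hn
    rw [gEnv_E, ← avg_sub]
    refine avg_congr fun ω hω => ?_
    have hE : NonEig ω.1 (E n.1) := nonEig_of_isUnit (hn ω.1 (mem_reg_of_WW hω) ∅)
    have := G_gEnv d K E n hω hE
    show Θ ((gEnv d E n).G (J := Fin K) ω.1 (tup ω)) = _
    rw [this]
  · intro n hn
    rw [WW_empty hn]
    simp [avg]

/-- Tightness of `G(E)` on the stars. -/
theorem E1tight {d : ℕ} {𝒰 : Ultrafilter ℕ} {E : ℕ → ℝ} {E₀ : ℝ}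
    (h : GoodSeq d 𝒰 E E₀) (K : ℕ) {ε : ℝ} (hε : 0 < ε) :
    ∃ r : ℝ, 0 ≤ r ∧ ∀ᶠ n in (𝒰 : Filter ℕ),
      prob (WW n d K) (fun ω => r < nrm (Gre (E n) ω)) ≤ ε := by
  classical
  obtain ⟨r, hr, ht⟩ := (hyp_of_good h K).tight hε
  refine ⟨r, hr, ?_⟩
  have h1 : ∀ᶠ n in lU d 𝒰,
      prob (WW n.1 d K) (fun ω => r < nrm (Gre (E n.1) ω)) ≤ ε := by
    have hns : ∀ᶠ n : Idx d in lU d 𝒰, ∀ G ∈ regularGraphs n.1 d, ∀ D : Finset (Fin n.1),
        IsUnit (cutMat (adj G) D (E n.1 : ℂ)).det := ev_lU h.nonsing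
    filter_upwards [hns, ht] with n hn h2
    rw [gEnv_E] at h2
    refine le_trans (le_of_eq ?_) h2
    unfold prob
    refine avg_congr fun ω hω => ?_
    have hE : NonEig ω.1 (E n.1) := nonEig_of_isUnit (hn ω.1 (mem_reg_of_WW hω) ∅)
    have := G_gEnv d K E n hω hE
    show _ = (if r < nrm ((gEnv d E n).G (J := Fin K) ω.1 (tup ω)) then (1 : ℝ) else 0)
    rw [this]
  by_cases hne : {n : ℕ | 0 < n ∧ (regularGraphs n d).Nonempty} ∈ (𝒰 : Filter ℕ)
  · unfold lU at h1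
    rw [eventually_comap] at h1
    filter_upwards [h1, hne] with n h2 h3
    exact h2 ⟨n, h3⟩ rfl
  · have h4 : {n : ℕ | 0 < n ∧ (regularGraphs n d).Nonempty}ᶜ ∈ (𝒰 : Filter ℕ) :=
      Ultrafilter.compl_mem_iff_notMem.2 hne
    have h2 : ∀ᶠ n in (𝒰 : Filter ℕ), 0 < n := h.atTop (eventually_gt_atTop 0)
    filter_upwards [h4, h2] with n h3 h5
    have : WW n d K = ∅ := WW_empty fun h6 => h3 ⟨h5, h6⟩
    rw [this]
    simp only [prob, avg, Finset.sum_empty, zero_div]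
    exact hε.le

end Vale.Agent.P156.H12
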